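import Vale.Agent.N348.Refl

/-! Comparison of partition functions under a bounded perturbation. -/

set_option linter.unusedSectionVars false

namespace Vale.Agent.N348

open Vale.Agent.P348 Matrix Finset Filter Topology

noncomputable section

section mat
variable {m : Type} [Fintype m] [DecidableEq m]

/-- all absolute row sums are at most `η` -/
def RowB (V : Matrix m m ℂ) (η : ℝ) : Prop := ∀ s, ∑ t, ‖V s t‖ ≤ η

theorem RowB.add {V V' : Matrix m m ℂ} {η η' : ℝ} (h : RowB V η) (h' : RowB V' η') :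
    RowB (V + V') (η + η') := fun s => by
  refine le_trans (Finset.sum_le_sum fun t _ => ?_) (le_trans (le_of_eq Finset.sum_add_distrib)
    (add_le_add (h s) (h' s)))
  exact norm_add_le _ _

theorem RowB.neg {V : Matrix m m ℂ} {η : ℝ} (h : RowB V η) : RowB (-V) η := fun s => by
  simpa using h s

theorem RowB.smul {V : Matrix m m ℂ} {η c δ : ℝ} (h : RowB V η) (hc : |c| ≤ δ) :
    RowB ((c : ℂ) • V) (δ * η) := fun s => by
  simp only [Matrix.smul_apply, smul_eq_mul, norm_mul, Complex.norm_real, Real.norm_eq_abs]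
  rw [← Finset.mul_sum]
  exact mul_le_mul hc (h s) (Finset.sum_nonneg fun _ _ => norm_nonneg _) ((abs_nonneg _).trans hc)

theorem RowB.sum {κ : Type} [Fintype κ] {V : κ → Matrix m m ℂ} {η : κ → ℝ}
    (h : ∀ k, RowB (V k) (η k)) : RowB (∑ k, V k) (∑ k, η k) := fun s => by
  simp only [Matrix.sum_apply]
  refine (Finset.sum_le_sum fun t _ => norm_sum_le _ _).trans ?_
  rw [Finset.sum_comm]
  exact Finset.sum_le_sum fun k _ => h k s

theorem RowB.mul {V V' : Matrix m m ℂ} {η η' : ℝ} (h : RowB V η) (h' : RowB V' η')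
    (h0 : 0 ≤ η') : RowB (V * V') (η * η') := fun s => by
  simp only [Matrix.mul_apply]
  refine (Finset.sum_le_sum fun t _ => norm_sum_le _ _).trans ?_
  rw [Finset.sum_comm]
  simp only [norm_mul, ← Finset.mul_sum]
  refine (Finset.sum_le_sum fun k _ => mul_le_mul_of_nonneg_left (h' k) (norm_nonneg _)).trans ?_
  rw [← Finset.sum_mul]
  exact mul_le_mul_of_nonneg_right (h s) h0

theorem RowB.mono {V : Matrix m m ℂ} {η η' : ℝ} (h : RowB V η) (h' : η ≤ η') : RowB V η' :=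
  fun s => (h s).trans h'

theorem col_sq {U : Matrix m m ℂ} (hU : star U * U = 1) (i : m) : ∑ s, ‖U s i‖ ^ 2 = 1 := by
  have := congrFun (congrFun hU i) i
  rw [Matrix.mul_apply, Matrix.one_apply_eq] at this
  have h2 : ((∑ s, ‖U s i‖ ^ 2 : ℝ) : ℂ) = 1 := by
    rw [← this]
    push_cast
    refine Finset.sum_congr rfl fun k _ => ?_
    rw [Matrix.star_apply, Complex.star_def, Complex.conj_mul']
  exact_mod_cast h2

/-- Schur test -/
theorem RowB.diag {V : Matrix m m ℂ} {η : ℝ} (h : RowB V η) (hV : V.IsHermitian)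
    {U : Matrix m m ℂ} (hU : star U * U = 1) (i : m) : ‖(star U * V * U) i i‖ ≤ η := by
  have hs : ∀ s t, ‖V t s‖ = ‖V s t‖ := fun s t => by
    rw [← hV.apply s t, norm_star]
  have h1 : ‖(star U * V * U) i i‖ ≤
      ∑ t, ∑ s, (‖V s t‖ * ‖U s i‖ ^ 2 / 2 + ‖V t s‖ * ‖U t i‖ ^ 2 / 2) := by
    simp only [Matrix.mul_apply, Finset.sum_mul]
    refine (norm_sum_le _ _).trans (Finset.sum_le_sum fun t _ => ?_)
    refine (norm_sum_le _ _).trans (Finset.sum_le_sum fun s _ => ?_)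
    rw [hs s t, norm_mul, norm_mul, Matrix.star_apply, norm_star]
    nlinarith [mul_nonneg (norm_nonneg (V s t)) (sq_nonneg (‖U s i‖ - ‖U t i‖))]
  have h2 : ∑ s, ∑ t, ‖V s t‖ * ‖U s i‖ ^ 2 / 2 ≤ η / 2 := by
    have h3 : η / 2 = ∑ s, η * ‖U s i‖ ^ 2 / 2 := by
      rw [← Finset.sum_div, ← Finset.mul_sum, col_sq hU, mul_one]
    rw [h3]
    refine Finset.sum_le_sum fun s _ => ?_
    rw [← Finset.sum_div, ← Finset.sum_mul]
    have := mul_le_mul_of_nonneg_right (h s) (sq_nonneg ‖U s i‖)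
    linarith
  simp only [Finset.sum_add_distrib] at h1
  rw [Finset.sum_comm (f := fun t s => ‖V s t‖ * ‖U s i‖ ^ 2 / 2)] at h1
  linarith

theorem conj_diag {U G H : Matrix m m ℂ} (h2 : star U * U = 1) (h3 : H = U * G * star U) :
    star U * H * U = G := by
  rw [h3]
  simp only [Matrix.mul_assoc, h2, Matrix.mul_one]
  rw [← Matrix.mul_assoc, h2, Matrix.one_mul]

theorem eig_le {H : Matrix m m ℂ} (h : H.IsHermitian) {η : ℝ} (hη : RowB H η) (i : m) :
    h.eigenvalues i ≤ η := by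
  obtain ⟨U, _, h2, h3⟩ := spec h
  have h4 := hη.diag h h2 i
  rw [conj_diag h2 h3, Matrix.diagonal_apply_eq, Complex.norm_real, Real.norm_eq_abs] at h4
  exact (le_abs_self _).trans h4

/-- Peierls–Bogoliubov comparison -/
theorem sum_exp_le {H0 H1 : Matrix m m ℂ} (h0 : H0.IsHermitian) (h1 : H1.IsHermitian) {η : ℝ}
    (hη : RowB (H0 - H1) η) {T : ℝ} (hT : 0 ≤ T) :
    ∑ i, Real.exp (-(T * h1.eigenvalues i)) ≤
      Real.exp (T * η) * ∑ k, Real.exp (-(T * h0.eigenvalues k)) := by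
  obtain ⟨U, hUU, hUU', s1⟩ := spec h1
  obtain ⟨V, hVV, hVV', s0⟩ := spec h0
  set P : Matrix m m ℂ := star V * U with hP
  have hPs : star P = star U * V := by rw [hP, star_mul, star_star]
  have p1 : star P * P = 1 := by
    rw [hPs, hP, Matrix.mul_assoc, ← Matrix.mul_assoc V, hVV, Matrix.one_mul, hUU']
  have p2 : star (star P) * star P = 1 := by
    rw [star_star, hPs, hP, Matrix.mul_assoc, ← Matrix.mul_assoc U, hUU, Matrix.one_mul, hVV']
  have e0 : ∀ i, (star U * H0 * U) i i = ((∑ k, ‖P k i‖ ^ 2 * h0.eigenvalues k : ℝ) : ℂ) := by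
    intro i
    have : star U * H0 * U =
        star P * diagonal (fun i => ((h0.eigenvalues i : ℝ) : ℂ)) * P := by
      rw [congrArg (fun X => star U * X * U) s0, hPs, hP]
      simp only [Matrix.mul_assoc]
    rw [this, Matrix.mul_apply]
    push_cast
    refine Finset.sum_congr rfl fun k _ => ?_
    rw [Matrix.mul_diagonal, Matrix.star_apply, Complex.star_def, ← Complex.conj_mul']
    ring
  have c2 : ∀ k, ∑ i, ‖P k i‖ ^ 2 = 1 := by
    intro k
    have := col_sq p2 k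
    simpa only [Matrix.star_apply, norm_star] using this
  have key : ∀ i, Real.exp (-(T * h1.eigenvalues i)) ≤
      Real.exp (T * η) * ∑ k, ‖P k i‖ ^ 2 * Real.exp (-(T * h0.eigenvalues k)) := by
    intro i
    have a0 := hη.diag (h0.sub h1) hUU' i
    rw [Matrix.mul_sub, Matrix.sub_mul, Matrix.sub_apply, e0, conj_diag hUU' s1,
      Matrix.diagonal_apply_eq, ← Complex.ofReal_sub, Complex.norm_real, Real.norm_eq_abs] at a0
    have a1 := (abs_le.1 a0).2
    have a2 : Real.exp (∑ k, ‖P k i‖ ^ 2 • (-(T * h0.eigenvalues k))) ≤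
        ∑ k, ‖P k i‖ ^ 2 • Real.exp (-(T * h0.eigenvalues k)) :=
      convexOn_exp.map_sum_le (fun k _ => sq_nonneg _) (col_sq p1 i) (fun k _ => Set.mem_univ _)
    simp only [smul_eq_mul] at a2
    refine le_trans ?_ (mul_le_mul_of_nonneg_left a2 (Real.exp_pos _).le)
    rw [← Real.exp_add]
    refine Real.exp_le_exp.2 ?_
    have a3 : ∑ k, ‖P k i‖ ^ 2 * (-(T * h0.eigenvalues k)) =
        -(T * ∑ k, ‖P k i‖ ^ 2 * h0.eigenvalues k) := by
      rw [Finset.mul_sum, ← Finset.sum_neg_distrib]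
      refine Finset.sum_congr rfl fun k _ => by ring
    rw [a3]
    nlinarith [mul_le_mul_of_nonneg_left a1 hT]
  refine (Finset.sum_le_sum fun i _ => key i).trans (le_of_eq ?_)
  rw [← Finset.mul_sum, Finset.sum_comm]
  congr 1
  refine Finset.sum_congr rfl fun k _ => ?_
  rw [← Finset.sum_mul, c2, one_mul]

/-- a simple least eigenvalue and a gap above it -/
theorem gap_form {A : Matrix m m ℂ} (hA : A.IsHermitian) (i₀ : m) {γ : ℝ}
    (hg : ∀ i, i ≠ i₀ → hA.eigenvalues i₀ + γ ≤ hA.eigenvalues i) :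
    ∃ ψ : m → ℂ, ψ ≠ 0 ∧ A.mulVec ψ = ((hA.eigenvalues i₀ : ℝ) : ℂ) • ψ ∧
      ∀ (μ : ℂ) (φ : m → ℂ), A.mulVec φ = μ • φ →
        (∃ c : ℂ, φ = c • ψ) ∨ (μ.im = 0 ∧ hA.eigenvalues i₀ + γ ≤ μ.re) := by
  obtain ⟨V, hVV, hVV', h1⟩ := spec hA
  set G := diagonal (fun i => ((hA.eigenvalues i : ℝ) : ℂ)) with hG
  have h2 : A * V = V * G := by
    rw [congrArg (· * V) h1, Matrix.mul_assoc, hVV', Matrix.mul_one]
  have h3 : star V * A = G * star V := by
    rw [congrArg (star V * ·) h1, Matrix.mul_assoc, ← Matrix.mul_assoc, hVV', Matrix.one_mul]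
  refine ⟨fun s => V s i₀, ?_, ?_, ?_⟩
  · intro h0
    have h4 := col_sq hVV' i₀
    rw [Finset.sum_eq_zero fun s _ => by rw [congrFun h0 s]; simp] at h4
    exact zero_ne_one h4
  · funext s
    have := congrFun (congrFun h2 s) i₀
    rw [hG, Matrix.mul_diagonal] at this
    simp only [Matrix.mulVec, dotProduct, Pi.smul_apply, smul_eq_mul]
    rw [Matrix.mul_apply] at this
    rw [this, mul_comm]
  · intro μ φ hφ
    have h5 : (star V).mulVec (A.mulVec φ) = G.mulVec ((star V).mulVec φ) := by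
      rw [Matrix.mulVec_mulVec, h3, ← Matrix.mulVec_mulVec]
    rw [hφ, Matrix.mulVec_smul] at h5
    by_cases h4 : ∀ i, i ≠ i₀ → (star V).mulVec φ i = 0
    · left
      refine ⟨(star V).mulVec φ i₀, ?_⟩
      have h9 : φ = V.mulVec ((star V).mulVec φ) := by
        rw [Matrix.mulVec_mulVec, hVV, Matrix.one_mulVec]
      funext s
      rw [congrFun h9 s]
      generalize (star V).mulVec φ = w at h4
      simp only [Matrix.mulVec, dotProduct, Pi.smul_apply, smul_eq_mul]
      rw [Finset.sum_eq_single i₀]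
      · rw [mul_comm]
      · intro i _ hi
        rw [h4 i hi, mul_zero]
      · intro h; exact absurd (Finset.mem_univ _) h
    · right
      push Not at h4
      obtain ⟨i, hi, hne⟩ := h4
      have h6 := congrFun h5 i
      rw [hG, Matrix.mulVec_diagonal] at h6
      simp only [Pi.smul_apply, smul_eq_mul] at h6
      rw [mul_right_cancel₀ hne h6]
      exact ⟨Complex.ofReal_im _, by rw [Complex.ofReal_re]; exact hg i hi⟩

end mat

theorem rowB_onSite {n : ℕ} (x : Fin n) {A : M3} {η : ℝ} (h : RowB A η) :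
    RowB (onSite x A) η := by
  intro s
  simp only [onSite_eq_tensC, tensC, norm_prod]
  have h1 := Finset.prod_univ_sum (fun _ : Fin n => (Finset.univ : Finset (Fin 3)))
    (fun z c => ‖(if z = x then A else 1) (s z) c‖)
  rw [Fintype.piFinset_univ] at h1
  rw [← h1, Finset.prod_eq_single x]
  · simp only [if_true]
    exact h _
  · intro z _ hz
    simp only [if_neg hz, Matrix.one_apply]
    rw [Finset.sum_eq_single (s z)]
    · simp
    · intro c _ hc
      simp [hc.symm]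
    · intro h; exact absurd (Finset.mem_univ _) h
  · intro h; exact absurd (Finset.mem_univ _) h

/-! ### comparison of channels -/

theorem E0_le_of {D D' : TwoChannel} {k : ℕ} {η : ℝ}
    (h : ∀ T : ℝ, 0 < T → D.Z T k ≤ Real.exp (T * η) * D'.Z T k) : D'.E0 k ≤ D.E0 k + η := by
  by_contra hcon
  push Not at hcon
  set δ := D'.E0 k - (D.E0 k + η) with hδ
  have hδ0 : 0 < δ := by linarith
  have key : ∀ T : ℝ, 0 < T → Real.exp (T * δ) ≤ Fintype.card (D'.ι k) := by
    intro T hT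
    have h1 := (D.exp_le_Z T k).trans ((h T hT).trans
      (mul_le_mul_of_nonneg_left (D'.Z_le_card T hT.le k) (Real.exp_pos _).le))
    have h2 : Real.exp (T * δ) = Real.exp (-(T * D.E0 k)) *
        Real.exp (T * (D'.E0 k - η)) := by
      rw [← Real.exp_add]; congr 1; rw [hδ]; ring
    rw [h2]
    refine (mul_le_mul_of_nonneg_right h1 (Real.exp_pos _).le).trans (le_of_eq ?_)
    have h3 : Real.exp (T * η) * Real.exp (-(T * D'.E0 k)) * Real.exp (T * (D'.E0 k - η)) = 1 := by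
      rw [← Real.exp_add, ← Real.exp_add, ← Real.exp_zero]; congr 1; ring
    calc _ = (Fintype.card (D'.ι k) : ℝ) * (Real.exp (T * η) * Real.exp (-(T * D'.E0 k)) *
          Real.exp (T * (D'.E0 k - η))) := by ring
      _ = _ := by rw [h3, mul_one]
  have hlim : Tendsto (fun T : ℝ => Real.exp (T * δ)) atTop atTop :=
    Real.tendsto_exp_atTop.comp (tendsto_id.atTop_mul_const hδ0)
  obtain ⟨T, hT1, hT2⟩ := ((hlim.eventually_gt_atTop
    (Fintype.card (D'.ι k) : ℝ)).and (eventually_gt_atTop 0)).exists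
  exact absurd (key T hT2) (not_le.2 hT1)

theorem e0_le_of {D D' : TwoChannel} {v : ℝ}
    (h : ∀ k, 1 ≤ k → ∀ T : ℝ, 0 < T → D.Z T k ≤ Real.exp (T * (v * k)) * D'.Z T k) :
    D'.e0 ≤ D.e0 + v := by
  refine le_of_tendsto_of_tendsto D'.tendsto_e0 (D.tendsto_e0.add_const v) ?_
  filter_upwards [eventually_ge_atTop 1] with k hk
  have hk' : (0 : ℝ) < k := by exact_mod_cast hk
  have h1 := E0_le_of (h k hk)
  rw [div_add' _ _ _ hk'.ne', div_le_div_iff_of_pos_right hk']
  exact h1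

/-- the normalised partition function under a perturbation -/
theorem z_le_of {D D' : TwoChannel} {v : ℝ}
    (h : ∀ k, 1 ≤ k → ∀ T : ℝ, 0 < T → D.Z T k ≤ Real.exp (T * (v * k)) * D'.Z T k)
    (h' : ∀ k, 1 ≤ k → ∀ T : ℝ, 0 < T → D'.Z T k ≤ Real.exp (T * (v * k)) * D.Z T k)
    {k : ℕ} (hk : 1 ≤ k) {T : ℝ} (hT : 0 < T) :
    D'.z T k ≤ Real.exp (2 * v * (T * k)) * D.z T k := by
  have h1 := e0_le_of h
  have h2 : Real.exp (T * (k * D'.e0)) ≤ Real.exp (T * (v * k)) * Real.exp (T * (k * D.e0)) := by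
    rw [← Real.exp_add]
    refine Real.exp_le_exp.2 ?_
    have := mul_le_mul_of_nonneg_left h1 (show (0 : ℝ) ≤ T * k by positivity)
    nlinarith
  unfold TwoChannel.z
  refine (mul_le_mul (h' k hk T hT) h2 (Real.exp_pos _).le
    (mul_pos (Real.exp_pos _) (D.Z_pos _ _)).le).trans (le_of_eq ?_)
  have : Real.exp (2 * v * (T * k)) = Real.exp (T * (v * k)) * Real.exp (T * (v * k)) := by
    rw [← Real.exp_add]; congr 1; ring
  rw [this]; ring

/-- beyond a good scale some time certifies the rate and uniqueness -/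
theorem z_of_rate (D : TwoChannel) {T₀ : ℝ} (hT : 0 < T₀) {k₀ : ℕ} (hk : 1 ≤ k₀) {e₀ r : ℝ}
    (he : 0 ≤ e₀) (he1 : e₀ ≤ 37 / 1000) (hq : 27 * e₀ ≤ Real.exp (-(r * T₀)))
    (hz : D.z T₀ k₀ ≤ 1 + e₀) {k : ℕ} (hkk : k₀ ≤ k) :
    ∃ S : ℝ, T₀ ≤ S ∧ T₀ * k ≤ 2 * k₀ * S ∧ D.z S k ≤ 1 + Real.exp (-(r * S)) := by
  obtain ⟨n, hn1, hn2⟩ := TwoChannel.St.exists_dyadic hk hkk
  obtain ⟨e, he0, he1, he2, he3⟩ := D.z_iter_rate hT hk he he1 hq hz n
  set T := 2 ^ n * T₀ with hTn
  have hTpos : 0 < T := by positivity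
  set K := 2 ^ n * k₀ with hK
  have hK1 : 1 ≤ K := Nat.mul_pos (by positivity) hk
  have hLam := D.one_le_Lam hTpos
  have h1 : D.z T k ≤ (1 + e) ^ 2 := by
    obtain ⟨j, rfl⟩ : ∃ j, k = j + K := ⟨k - K, by omega⟩
    have c1 := (D.Lam_spec hTpos).2.2 j K hK1
    have c2 : D.Lam T ^ j ≤ D.Lam T ^ K := pow_le_pow_right₀ hLam (by omega)
    have c3 := D.Lam_pow_le hTpos hK1
    have c4 := D.z_pos T K
    calc D.z T (j + K) ≤ D.Lam T ^ j * D.z T K := c1
      _ ≤ D.z T K * D.z T K := mul_le_mul_of_nonneg_right (c2.trans c3) c4.le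
      _ = D.z T K ^ 2 := by ring
      _ ≤ (1 + e) ^ 2 := pow_le_pow_left₀ c4.le he3 2
  refine ⟨T, le_mul_of_one_le_left hT.le (one_le_pow₀ (by norm_num)), ?_, ?_⟩
  · have h6 : (k : ℝ) ≤ 2 * (2 ^ n * k₀) := by rw [hK] at hn2; exact_mod_cast hn2
    have := mul_le_mul_of_nonneg_left h6 hT.le
    rw [hTn]
    linarith
  have h4 : (1 + e) ^ 2 - 1 ≤ 27 * e := by nlinarith
  have h5 : Real.exp (-(r * T₀)) ^ (2 ^ n) = Real.exp (-(r * T)) := by
    rw [← Real.exp_nat_mul]; congr 1; rw [hTn]; push_cast; ring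
  linarith

end

end Vale.Agent.N348
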