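import Vale.Agent.P348.H997.Main

/-! The crossed channel for a general alphabet of bond events, site dependent complex letters
and a one-site term. -/

set_option linter.unusedSectionVars false

namespace Vale.Agent.N348

open Vale.Agent.P348 Matrix Finset Filter Topology

noncomputable section

abbrev M3 := Matrix (Fin 3) (Fin 3) ℂ

section tens
variable {ι : Type} [Fintype ι] [DecidableEq ι]

theorem trace_tensC (M : ι → M3) : (tensC M).trace = ∏ x, (M x).trace := by
  simp only [Matrix.trace, Matrix.diag_apply, tensC]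
  rw [Finset.prod_univ_sum]
  simp only [Fintype.piFinset_univ]

theorem tensC_smul (s : ι → ℝ) (M : ι → M3) :
    tensC (fun x => s x • M x) = (∏ x, s x) • tensC M := by
  ext a b
  simp only [tensC, Matrix.smul_apply, Complex.real_smul, prod_mul_distrib, Complex.ofReal_prod]

theorem sum_tensC_pow {Ω : Type} [Fintype Ω] (M : Ω → ι → M3) (N : ℕ) :
    (∑ g, tensC (M g)) ^ N =
      ∑ g : Fin N → Ω, tensC (fun x => (List.ofFn (fun j => M (g j) x)).prod) := by
  induction N with
  | zero => simp [tensC_one]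
  | succ N ih =>
    rw [pow_succ', ih]
    rw [← (Fin.consEquiv (fun _ : Fin (N + 1) => Ω)).sum_comp, Fintype.sum_prod_type]
    rw [Finset.sum_mul]
    refine Finset.sum_congr rfl (fun g _ => ?_)
    rw [Finset.mul_sum]
    refine Finset.sum_congr rfl (fun h _ => ?_)
    rw [tensC_mul]
    simp only [Fin.consEquiv, Equiv.coe_fn_mk, Fin.cons_zero, Fin.cons_succ, List.ofFn_succ,
      List.prod_cons]

end tens

section paths
variable {V : Type} [Fintype V] [DecidableEq V]

theorem path_sumC (n : ℕ) (M : Fin n → Matrix V V ℂ) (f : V → V → ℂ) :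
    ∑ O : Fin (n + 1) → V, (∏ i : Fin n, M i (O i.castSucc) (O i.succ)) *
      f (O 0) (O (Fin.last n)) = ∑ x, ∑ y, (List.ofFn M).prod x y * f x y := by
  induction n generalizing f with
  | zero =>
    simp only [Finset.univ_eq_empty, Finset.prod_empty, one_mul, List.ofFn_zero, List.prod_nil,
      Matrix.one_apply]
    rw [← (Equiv.funUnique (Fin 1) V).symm.sum_comp]
    simp
  | succ n ih =>
    rw [← (Fin.consEquiv (fun _ : Fin (n + 2) => V)).sum_comp, Fintype.sum_prod_type]
    have : ∀ x : V, ∑ O : Fin (n + 1) → V,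
        (∏ i : Fin (n + 1), M i ((Fin.cons x O : Fin (n + 2) → V) i.castSucc)
          ((Fin.cons x O : Fin (n + 2) → V) i.succ)) *
          f ((Fin.cons x O : Fin (n + 2) → V) 0)
            ((Fin.cons x O : Fin (n + 2) → V) (Fin.last (n + 1)))
        = ∑ y, ∑ z, (List.ofFn fun i : Fin n => M i.succ).prod y z * (M 0 x y * f x z) := by
      intro x
      rw [← ih (fun i => M i.succ) (fun y z => M 0 x y * f x z)]
      refine Finset.sum_congr rfl (fun O _ => ?_)
      rw [Fin.prod_univ_succ]
      have h1 : (Fin.cons x O : Fin (n + 2) → V) (Fin.last (n + 1)) = O (Fin.last n) := by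
        rw [← Fin.succ_last, Fin.cons_succ]
      rw [h1]
      simp only [Fin.castSucc_zero, Fin.cons_zero, Fin.cons_succ, ← Fin.succ_castSucc]
      ring
    refine (Finset.sum_congr rfl (fun x _ => this x)).trans ?_
    refine Finset.sum_congr rfl (fun x _ => ?_)
    rw [Finset.sum_comm]
    refine Finset.sum_congr rfl (fun z _ => ?_)
    rw [List.ofFn_succ, List.prod_cons, Matrix.mul_apply, Finset.sum_mul]
    refine Finset.sum_congr rfl (fun y _ => ?_)
    ring

theorem cyc_sumC (n : ℕ) (M : Fin (n + 1) → Matrix V V ℂ) :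
    ∑ O : Fin (n + 1) → V, ∏ i : Fin (n + 1), M i (O i) (O (i + 1)) =
      ((List.ofFn M).prod).trace := by
  have h : ∀ O : Fin (n + 1) → V, ∏ i : Fin (n + 1), M i (O i) (O (i + 1)) =
      (∏ i : Fin n, M i.castSucc (O i.castSucc) (O i.succ)) *
        M (Fin.last n) (O (Fin.last n)) (O 0) := by
    intro O
    rw [Fin.prod_univ_castSucc]
    congr 1
    · refine Finset.prod_congr rfl (fun i _ => ?_)
      rw [Fin.coeSucc_eq_succ]
    · rw [Fin.last_add_one]
  rw [Finset.sum_congr rfl (fun O _ => h O)]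
  rw [path_sumC n (fun i => M i.castSucc) (fun x y => M (Fin.last n) y x)]
  rw [List.ofFn_succ', List.prod_concat]
  simp only [Matrix.trace, Matrix.diag_apply]
  refine Finset.sum_congr rfl (fun x _ => ?_)
  rw [Matrix.mul_apply]

theorem prod_alt {R : Type} [Monoid R] (a b : R) (k : ℕ) :
    (List.ofFn (fun i : Fin (2 * k) => if Even (i : ℕ) then a else b)).prod = (a * b) ^ k := by
  induction k with
  | zero => simp
  | succ k ih =>
    have h : (List.ofFn (fun i : Fin (2 * k + 1 + 1) => if Even (i : ℕ) then a else b)).prod =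
        (a * b) ^ (k + 1) := by
      rw [List.ofFn_succ, List.ofFn_succ, List.prod_cons, List.prod_cons, pow_succ', ← ih,
        mul_assoc]
      simp only [Fin.val_zero, Even.zero, if_true, Fin.val_succ, zero_add, Nat.not_even_one,
        if_false, add_assoc, Nat.reduceAdd, Nat.even_add, even_two, iff_true]
    exact h

end paths

variable {Γ : Type} [Fintype Γ] [DecidableEq Γ]

/-- at most one bond event per site and time slot; `P` for the left bond, `Q` for the right one -/
def slot0 (P Q : Γ → M3) : Option Γ → Option Γ → M3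
  | none, none => 1
  | none, some a => Q a
  | some a, none => P a
  | some _, some _ => 0

def wt (c : Option Γ) : ℕ := if c = none then 0 else 1

def slotG (P Q : Γ → M3) (C : M3) (t : ℝ) (c d : Option Γ) : M3 :=
  (1 + t • C) * ((Real.sqrt t ^ wt c * Real.sqrt t ^ wt d) • slot0 P Q c d)

/-- the kernel of one site -/
def Kg (P Q : Γ → M3) (C : M3) (N : ℕ) (t : ℝ) :
    Matrix (Fin N → Option Γ) (Fin N → Option Γ) ℂ := fun p q =>
  ((List.ofFn (fun j => slotG P Q C t (p j) (q j))).prod).trace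

section ring
variable {n : ℕ} (P Q : Fin (n + 1) → Γ → M3) (C : Fin (n + 1) → M3)

/-- one time slot of the ring; the letter `o x` sits on the bond between `x - 1` and `x` -/
def Ur (t : ℝ) : Matrix (Fin (n + 1) → Fin 3) (Fin (n + 1) → Fin 3) ℂ :=
  ∑ o : Fin (n + 1) → Option Γ, tensC (fun x => slotG (P x) (Q x) (C x) t (o x) (o (x + 1)))

theorem ring_crossG (N : ℕ) (t : ℝ) :
    ((Ur P Q C t) ^ N).trace = ((List.ofFn fun x => Kg (P x) (Q x) (C x) N t).prod).trace := by
  unfold Ur
  rw [sum_tensC_pow, Matrix.trace_sum, ← cyc_sumC]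
  simp only [trace_tensC]
  rw [← (Equiv.piComm (fun (_ : Fin (n + 1)) (_ : Fin N) => Option Γ)).sum_comp]
  rfl

/-- minus the Hamiltonian -/
def XG : Matrix (Fin (n + 1) → Fin 3) (Fin (n + 1) → Fin 3) ℂ :=
  ∑ i, (∑ a : Γ, onSite i (Q i a) * onSite (i + 1) (P (i + 1) a) + onSite i (C i))

def nv {n : ℕ} (o : Fin n → Option Γ) : ℕ := ∑ i, wt (o i)

def Gt0 (o : Fin (n + 1) → Option Γ) : Matrix (Fin (n + 1) → Fin 3) (Fin (n + 1) → Fin 3) ℂ :=
  tensC (fun x => slot0 (P x) (Q x) (o x) (o (x + 1)))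

theorem Ur_eq {t : ℝ} (ht : 0 ≤ t) :
    Ur P Q C t = tensC (fun x : Fin (n + 1) => 1 + t • C x) *
      ∑ o : Fin (n + 1) → Option Γ, t ^ (nv o) • Gt0 P Q o := by
  unfold Ur
  rw [Finset.mul_sum]
  refine Finset.sum_congr rfl (fun o _ => ?_)
  unfold slotG Gt0
  rw [← tensC_mul, tensC_smul, Finset.prod_mul_distrib, Finset.prod_pow_eq_pow_sum,
    Finset.prod_pow_eq_pow_sum]
  have h2 : ∑ x : Fin (n + 1), wt (o (x + 1)) = nv o :=
    Equiv.sum_comp (Equiv.addRight (1 : Fin (n + 1))) (fun x => wt (o x))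
  rw [h2]
  change _ * ((Real.sqrt t ^ nv o * Real.sqrt t ^ nv o) • _) = _
  rw [← mul_pow, Real.mul_self_sqrt ht]

theorem nv_eq_zero {n : ℕ} {o : Fin n → Option Γ} : nv o = 0 ↔ o = fun _ => none := by
  unfold nv
  rw [Finset.sum_eq_zero_iff]
  constructor
  · intro h
    funext i
    by_contra h1
    have := h i (Finset.mem_univ i)
    simp [wt, h1] at this
  · rintro rfl i _
    simp [wt]

def sgl {n : ℕ} (i : Fin n) (a : Γ) : Fin n → Option Γ := fun j => if j = i then some a else none

theorem nv_sgl {n : ℕ} (i : Fin n) (a : Γ) : nv (sgl i a) = 1 := by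
  unfold nv
  rw [Finset.sum_eq_single i]
  · simp [sgl, wt]
  · intro j _ hj
    simp [sgl, wt, hj]
  · intro h; exact absurd (Finset.mem_univ _) h

theorem nv_eq_one {n : ℕ} {o : Fin n → Option Γ} (h : nv o = 1) : ∃ i a, o = sgl i a := by
  have h0 : o ≠ fun _ => none := by
    intro h1
    rw [← nv_eq_zero] at h1
    omega
  obtain ⟨i, hi⟩ := Function.ne_iff.mp h0
  obtain ⟨a, ha⟩ := Option.ne_none_iff_exists'.1 hi
  refine ⟨i, a, ?_⟩
  have h2 : ∑ j ∈ Finset.univ.erase i, wt (o j) = 0 := by
    have h3 := Finset.add_sum_erase Finset.univ (fun j => wt (o j)) (Finset.mem_univ i)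
    unfold nv at h
    rw [h] at h3
    have : wt (o i) = 1 := by simp [wt, ha]
    omega
  rw [Finset.sum_eq_zero_iff] at h2
  funext j
  by_cases hj : j = i
  · subst hj; simp [sgl, ha]
  · have h4 := h2 j (Finset.mem_erase.2 ⟨hj, Finset.mem_univ j⟩)
    simp only [sgl, if_neg hj]
    by_contra h5
    simp [wt, h5] at h4

theorem Gt0_sgl (hn : 1 ≤ n) (i : Fin (n + 1)) (a : Γ) :
    Gt0 P Q (sgl (i + 1) a) = onSite i (Q i a) * onSite (i + 1) (P (i + 1) a) := by
  unfold Gt0
  rw [onSite_eq_tensC, onSite_eq_tensC, tensC_mul]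
  congr 1
  funext x
  have hne := fin_succ_ne hn
  by_cases hx : x = i
  · subst hx
    have h2 : x ≠ x + 1 := fun h => hne x h.symm
    simp [sgl, slot0, h2]
  · by_cases hx1 : x = i + 1
    · subst hx1
      simp [sgl, slot0, hne (i + 1), hx]
    · simp [sgl, slot0, hx, hx1]

theorem sum_Gt0_one (hn : 1 ≤ n) :
    ∑ o : Fin (n + 1) → Option Γ, (if nv o = 1 then (1 : ℝ) else 0) • Gt0 P Q o =
      ∑ i : Fin (n + 1), ∑ a : Γ, onSite i (Q i a) * onSite (i + 1) (P (i + 1) a) := by
  simp only [ite_smul, one_smul, zero_smul]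
  rw [← Finset.sum_filter, ← Fintype.sum_prod_type']
  symm
  refine Finset.sum_bij (fun p _ => sgl (p.1 + 1) p.2) ?_ ?_ ?_ ?_
  · intro p _
    simp [nv_sgl]
  · rintro ⟨i, a⟩ _ ⟨i', a'⟩ _ h
    have h1 := congrFun h (i + 1)
    simp only [sgl, if_true] at h1
    by_cases hi : i = i'
    · subst hi
      simp at h1
      rw [h1]
    · simp [hi] at h1
  · intro o ho
    obtain ⟨i, a, rfl⟩ := nv_eq_one (Finset.mem_filter.1 ho).2
    exact ⟨(i - 1, a), Finset.mem_univ _, by simp⟩
  · intro p _
    exact (Gt0_sgl P Q hn p.1 p.2).symm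

theorem sum_Gt0_zero :
    ∑ o : Fin (n + 1) → Option Γ, (0 : ℝ) ^ (nv o) • Gt0 P Q o = 1 := by
  rw [Finset.sum_eq_single (fun _ => none)]
  · rw [nv_eq_zero.2 rfl, pow_zero, one_smul]
    unfold Gt0
    exact tensC_one
  · intro o _ h
    have : nv o ≠ 0 := fun h1 => h (nv_eq_zero.1 h1)
    rw [zero_pow this, zero_smul]
  · intro h; exact absurd (Finset.mem_univ _) h

theorem onSite_add {L : ℕ} (j : Fin L) (A B : M3) :
    onSite j (A + B) = onSite j A + onSite j B := by
  ext s t
  simp only [onSite, Matrix.add_apply]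
  split_ifs <;> simp

theorem onSite_rsmul {L : ℕ} (j : Fin L) (c : ℝ) (A : M3) :
    onSite j (c • A) = c • onSite j A := by
  ext s t
  simp only [onSite, Matrix.smul_apply]
  split_ifs <;> simp

theorem onSite_one {L : ℕ} (j : Fin L) : onSite j (1 : M3) = 1 := by
  rw [onSite_eq_tensC]
  simp only [ite_self]
  exact tensC_one

section limit

attribute [local instance] Matrix.linftyOpNormedRing Matrix.linftyOpNormedAlgebra

theorem site_deriv (s : Finset (Fin (n + 1))) :
    HasDerivAt (fun t : ℝ => tensC (fun x => if x ∈ s then 1 + t • C x else 1))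
      (∑ x ∈ s, onSite x (C x)) 0 := by
  induction s using Finset.induction_on with
  | empty =>
    simp only [Finset.notMem_empty, if_false, Finset.sum_empty]
    exact hasDerivAt_const _ _
  | insert y s hy ih =>
    have h1 : ∀ t : ℝ, tensC (fun x => if x ∈ insert y s then 1 + t • C x else 1) =
        (1 + t • onSite y (C y)) * tensC (fun x => if x ∈ s then 1 + t • C x else 1) := by
      intro t
      rw [← onSite_rsmul, ← onSite_one y, ← onSite_add, onSite_eq_tensC, tensC_mul]
      congr 1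
      funext x
      by_cases hx : x = y
      · subst hx; simp [hy]
      · simp [hx]
    have h2 : HasDerivAt (fun t : ℝ => 1 + t • onSite y (C y)) (onSite y (C y)) 0 := by
      have h5 := ((hasDerivAt_id' (0 : ℝ)).smul_const (onSite y (C y))).const_add 1
      rwa [one_smul] at h5
    have h3 := h2.mul ih
    simp only [zero_smul, add_zero, ite_self, tensC_one, mul_one, one_mul] at h3
    rw [Finset.sum_insert hy]
    simp only [h1]
    exact h3

theorem Ur_zero : Ur P Q C 0 = 1 := by
  rw [Ur_eq P Q C le_rfl, sum_Gt0_zero]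
  simp [tensC_one]

theorem Ur_deriv (hn : 1 ≤ n) :
    HasDerivWithinAt (fun t => Ur P Q C t) (XG P Q C) (Set.Ici 0) 0 := by
  have h1 : HasDerivAt (fun t : ℝ => ∑ o : Fin (n + 1) → Option Γ, t ^ (nv o) • Gt0 P Q o)
      (∑ o : Fin (n + 1) → Option Γ, (if nv o = 1 then (1 : ℝ) else 0) • Gt0 P Q o) 0 := by
    refine HasDerivAt.fun_sum (fun o _ => ?_)
    have h2 : HasDerivAt (fun t : ℝ => t ^ (nv o)) (if nv o = 1 then (1 : ℝ) else 0) 0 := by
      have h3 := hasDerivAt_pow (nv o) (0 : ℝ)
      have h6 : (if nv o = 1 then (1 : ℝ) else 0) = (nv o : ℝ) * 0 ^ (nv o - 1) := by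
        rcases Nat.lt_trichotomy (nv o) 1 with h | h | h
        · have : nv o = 0 := by omega
          simp [this]
        · simp [h]
        · have h4 : nv o - 1 ≠ 0 := by omega
          have h5 : nv o ≠ 1 := by omega
          simp only [h5, ↓reduceIte, zero_pow h4, mul_zero]
      rw [h6]
      exact h3
    exact h2.smul_const _
  rw [sum_Gt0_one P Q hn] at h1
  have h2 := site_deriv C Finset.univ
  simp only [Finset.mem_univ, if_true] at h2
  have h3 := h2.mul h1
  simp only [zero_smul, add_zero, tensC_one, one_mul, sum_Gt0_zero, mul_one] at h3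
  have h4 : XG P Q C = ∑ x : Fin (n + 1), onSite x (C x) +
      ∑ i : Fin (n + 1), ∑ a : Γ, onSite i (Q i a) * onSite (i + 1) (P (i + 1) a) := by
    unfold XG
    rw [Finset.sum_add_distrib]
    exact add_comm _ _
  rw [h4]
  exact h3.hasDerivWithinAt.congr (fun t ht => Ur_eq P Q C ht) (Ur_eq P Q C le_rfl)

theorem Ur_trotter (hn : 1 ≤ n) {T : ℝ} (hT : 0 ≤ T) :
    Tendsto (fun N : ℕ => (Ur P Q C (T / N)) ^ N) atTop
      (𝓝 (NormedSpace.exp (T • XG P Q C))) :=
  trotter_limit (f := fun t => Ur P Q C t) (Ur_zero P Q C) (Ur_deriv P Q C hn) hT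

end limit

end ring

end

end Vale.Agent.N348
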