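import Vale.Agent.P348.Defs

namespace Vale.Agent.N348

open Vale.Agent.P348

noncomputable section

/-- The bond operator `q_j = ∑_a S^a_j S^a_(j+1)` on the periodic ring. -/
def bond (L : ℕ) [NeZero L] (j : Fin L) : Matrix (Fin L → Fin 3) (Fin L → Fin 3) ℂ :=
  ∑ a : Fin 3, onSite j (spin a) * onSite (j + 1) (spin a)

/-- The spin-one ring `∑_j (∑_a J_(j,a) S^a_j S^a_(j+1) - b_j q_j^2 + ∑_a D_a (S^a_j)^2
+ (-1)^j ∑_a h_a S^a_j)`; the couplings `J_(j,a)` and `b_j` depend on the parity of `j`. -/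
def chainH (J : ZMod 2 → Fin 3 → ℝ) (b : ZMod 2 → ℝ) (D h : Fin 3 → ℝ) (L : ℕ) [NeZero L] :
    Matrix (Fin L → Fin 3) (Fin L → Fin 3) ℂ :=
  ∑ j : Fin L, (∑ a : Fin 3, (J (j : ℕ) a : ℂ) • (onSite j (spin a) * onSite (j + 1) (spin a)) -
    (b (j : ℕ) : ℂ) • (bond L j * bond L j) +
    ∑ a : Fin 3, (D a : ℂ) • (onSite j (spin a) * onSite j (spin a)) +
    ∑ a : Fin 3, ((-1) ^ (j : ℕ) * h a : ℂ) • onSite j (spin a))

/-- The parameters are within `δ` of those of the Heisenberg chain, with `b ≥ 0`. -/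
def Close (δ : ℝ) (J : ZMod 2 → Fin 3 → ℝ) (b : ZMod 2 → ℝ) (D h : Fin 3 → ℝ) : Prop :=
  (∀ p a, |J p a - 1| ≤ δ) ∧ (∀ p, 0 ≤ b p ∧ b p ≤ δ) ∧ (∀ a, |D a| ≤ δ) ∧ ∀ a, |h a| ≤ δ

/-- `E` is an eigenvalue of `H` with an eigenvector `ψ`, and every eigenvector of `H` is a
multiple of `ψ` or has a real eigenvalue at least `E + γ`. -/
def UniqueGap {n : Type} [Fintype n] (H : Matrix n n ℂ) (E γ : ℝ) : Prop :=
  ∃ ψ : n → ℂ, ψ ≠ 0 ∧ H.mulVec ψ = (E : ℂ) • ψ ∧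
    ∀ (μ : ℂ) (φ : n → ℂ), H.mulVec φ = μ • φ →
      (∃ c : ℂ, φ = c • ψ) ∨ (μ.im = 0 ∧ E + γ ≤ μ.re)

end

end Vale.Agent.N348
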