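import Vale.Agent.N348.Up

/-! Convergence of the gaps and lower semicontinuity of the limit. -/

set_option linter.unusedSectionVars false

namespace Vale.Agent.N348

open Vale.Agent.P348 Matrix Finset Filter Topology

noncomputable section

theorem b_decay (D : TwoChannel) {k : ℕ} {i₀ : D.ι k} {γ : ℝ} (h0 : D.E k i₀ = D.E0 k)
    (hg : ∀ i, i ≠ i₀ → D.E0 k + γ ≤ D.E k i) {S T : ℝ} (hST : S ≤ T) :
    D.b T k ≤ Real.exp (-((T - S) * γ)) * D.b S k := by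
  classical
  have hb : ∀ T : ℝ, D.b T k = ∑ i ∈ univ.erase i₀, Real.exp (-(T * (D.E k i - D.E0 k))) := by
    intro T
    unfold TwoChannel.b
    rw [TwoChannel.z_eq_sum, Finset.sum_mul]
    have h1 : ∀ i, Real.exp (-(T * (D.E k i - k * D.e0))) * Real.exp (-(T * D.f k))
        = Real.exp (-(T * (D.E k i - D.E0 k))) := by
      intro i; rw [← Real.exp_add]; congr 1; unfold TwoChannel.f; ring
    simp_rw [h1]
    rw [← Finset.sum_erase_add _ _ (mem_univ i₀), h0]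
    simp
  rw [hb, hb, Finset.mul_sum]
  refine Finset.sum_le_sum fun i hi => ?_
  rw [← Real.exp_add]
  refine Real.exp_le_exp.2 ?_
  have h2 := hg i (Finset.mem_erase.1 hi).1
  nlinarith [mul_le_mul_of_nonneg_left h2 (sub_nonneg.2 hST)]

theorem exp_le_two {u : ℝ} (h0 : 0 ≤ u) (h1 : u ≤ 1) : Real.exp u ≤ 1 + 2 * u := by
  refine (TwoChannel.exp_le_ex h0 h1).trans ?_
  unfold TwoChannel.ex
  nlinarith [mul_nonneg h0 h0, mul_nonneg h0 (mul_nonneg h0 h0)]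

/-- a gap at one large length is certified by the partition function at a suitable time -/
theorem scale (D : TwoChannel) {T₀ : ℝ} (hT : 0 < T₀) {k₀ : ℕ} (hk : 1 ≤ k₀) {e₀ r : ℝ}
    (he : 0 ≤ e₀) (he1 : e₀ ≤ 37 / 1000) (hr : 0 < r) (hq : 27 * e₀ ≤ Real.exp (-(r * T₀)))
    (hz : D.z T₀ k₀ ≤ 1 + e₀) {γ' γ : ℝ} (h0 : 0 < γ') (hγ : γ' < γ) :
    ∃ k₁ : ℕ, 1 ≤ k₁ ∧ ∀ k, k₁ ≤ k → ∀ i₀ : D.ι k, D.E k i₀ = D.E0 k →
      (∀ i, i ≠ i₀ → D.E0 k + γ ≤ D.E k i) →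
      ∃ T e : ℝ, 0 < T ∧ 0 < e ∧ D.z T k ≤ 1 + e ∧ 54 * e ≤ Real.exp (-(γ' * T)) ∧
        2 * e ≤ 37 / 1000 := by
  set a := γ - γ' with ha
  have ha0 : 0 < a := by linarith
  set M := γ / a + 1 with hM
  have hM1 : 1 ≤ M := by
    have : 0 ≤ γ / a := div_nonneg (by linarith) ha0.le
    linarith
  have hMa : (M - 1) * γ = γ' * M + a := by
    have : γ = γ' + a := by linarith
    rw [hM]; field_simp; rw [this]; ring
  obtain ⟨ρ, hρ⟩ := pow_unbounded_of_one_lt ((γ' * M + a) / r) (one_lt_two (α := ℝ))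
  rw [div_lt_iff₀ hr] at hρ
  set m := 2 ^ (ρ + 1) with hm
  set B : ℝ := 2 ^ (m + 1) with hB
  have hB0 : 0 < B := by positivity
  have t1 : Tendsto (fun S : ℝ => 54 * (2 * M + 3 * B) * Real.exp (-(a * S))) atTop
      (𝓝 (54 * (2 * M + 3 * B) * 0)) :=
    (Real.tendsto_exp_neg_atTop_nhds_zero.comp (tendsto_id.const_mul_atTop ha0)).const_mul _
  have t2 : Tendsto (fun S : ℝ => Real.exp (-(γ' * M * S))) atTop (𝓝 0) :=
    Real.tendsto_exp_neg_atTop_nhds_zero.comp (tendsto_id.const_mul_atTop (by positivity))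
  rw [mul_zero] at t1
  obtain ⟨S₁, hS₁⟩ := eventually_atTop.1 ((t1.eventually_le_const one_pos).and
    (t2.eventually_le_const (show (0 : ℝ) < 999 / 1000 by norm_num)))
  refine ⟨max (2 ^ ρ * k₀) ⌈S₁ * (m * k₀) / T₀⌉₊,
    le_max_of_le_left (Nat.mul_pos (by positivity) hk), fun k hkk i₀ hi₀ hg => ?_⟩
  obtain ⟨n, hn1, hn2⟩ := TwoChannel.St.exists_dyadic (k₀ := 2 ^ ρ * k₀)
    (Nat.mul_pos (by positivity) hk) (le_of_max_le_left hkk)
  obtain ⟨e, e0, e1, _, e3⟩ := D.z_iter_rate hT hk he he1 hq hz n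
  obtain ⟨e', f0, _, f2, f3⟩ := D.z_iter_rate hT hk he he1 hq hz (n + ρ)
  set S := 2 ^ n * T₀ with hS
  set j := 2 ^ n * k₀ with hj
  have hS0 : 0 < S := by positivity
  have hj1 : 1 ≤ j := Nat.mul_pos (by positivity) hk
  have hj' : 2 ^ (n + ρ) * k₀ ≤ k := le_trans (le_of_eq (by ring)) hn1
  have hkm : k ≤ m * j := le_trans hn2 (le_of_eq (by rw [hm, hj]; ring))
  have hjk : j ≤ k := le_trans (Nat.mul_le_mul_right _
    (Nat.pow_le_pow_right (by norm_num) (Nat.le_add_right n ρ))) hj'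
  have hk1 : 1 ≤ k := hj1.trans hjk
  have hSS : S₁ ≤ S := by
    have h1 : S₁ * (m * k₀) / T₀ ≤ k := (Nat.le_ceil _).trans (by exact_mod_cast le_of_max_le_right hkk)
    have h2 : (k : ℝ) ≤ m * (2 ^ n * k₀) := by rw [hj] at hkm; exact_mod_cast hkm
    have h3 : (0 : ℝ) < m * k₀ := by
      have : (0 : ℝ) < k₀ := by exact_mod_cast hk
      have : (0 : ℝ) < m := by rw [hm]; positivity
      positivity
    rw [div_le_iff₀ hT] at h1
    refine le_of_mul_le_mul_right (h1.trans ?_) h3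
    have := mul_le_mul_of_nonneg_right h2 hT.le
    rw [hS]; linarith
  obtain ⟨g1, g2⟩ := hS₁ S hSS
  set u := Real.exp (-((γ' * M + a) * S)) with hu
  have hu0 : 0 < u := Real.exp_pos _
  have hu1 : u = Real.exp (-(a * S)) * Real.exp (-(γ' * M * S)) := by
    rw [hu, ← Real.exp_add]; congr 1; ring
  have hfin : 54 * ((2 * M + 3 * B) * u) ≤ Real.exp (-(γ' * M * S)) := by
    rw [hu1]
    have := mul_le_mul_of_nonneg_right g1 (Real.exp_pos (-(γ' * M * S))).le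
    linarith
  -- the space channel
  have hzS : D.z S k ≤ B := by
    obtain ⟨d, rfl⟩ : ∃ d, k = d + j := ⟨k - j, by omega⟩
    have hL := D.one_le_Lam hS0
    have c1 := (D.Lam_spec hS0).2.2 d j hj1
    have c2 : D.Lam S ^ d ≤ (D.Lam S ^ j) ^ m := by
      rw [← pow_mul]; exact pow_le_pow_right₀ hL (by rw [mul_comm]; omega)
    have c3 : (D.Lam S ^ j) ^ m ≤ 2 ^ m :=
      pow_le_pow_left₀ (by positivity) ((D.Lam_pow_le hS0 hj1).trans (by linarith)) m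
    refine c1.trans ?_
    rw [hB, pow_succ]
    exact mul_le_mul (c2.trans c3) (by linarith) (D.z_pos _ _).le (by positivity)
  have hb : D.b (M * S) k ≤ B * u := by
    have c1 := b_decay D hi₀ hg (S := S) (T := M * S) (le_mul_of_one_le_left hS0.le hM1)
    have c2 : (M * S - S) * γ = (γ' * M + a) * S := by rw [← hMa]; ring
    rw [c2, ← hu] at c1
    have c3 := D.b_le S hS0.le hk1
    rw [mul_comm B]
    exact c1.trans (mul_le_mul_of_nonneg_left (by linarith) hu0.le)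
  -- the finite-size energy
  have hf : M * S * D.f k ≤ M * u := by
    have c0 : 1 ≤ 2 ^ (n + ρ) * k₀ := Nat.mul_pos (by positivity) hk
    have c1 := D.f_anti' c0 hj'
    have c2 := (D.exp_f_le_z _ _).trans f3
    have c3 := Real.add_one_le_exp (2 ^ (n + ρ) * T₀ * D.f (2 ^ (n + ρ) * k₀))
    have c4 : S ≤ 2 ^ (n + ρ) * T₀ := by
      rw [hS]
      exact mul_le_mul_of_nonneg_right (pow_le_pow_right₀ (by norm_num) (by omega)) hT.le
    have c5 : S * D.f k ≤ 2 ^ (n + ρ) * T₀ * D.f (2 ^ (n + ρ) * k₀) :=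
      mul_le_mul c4 c1 (D.f_nonneg hk1) (by positivity)
    have c6 : Real.exp (-(r * T₀)) ^ 2 ^ (n + ρ) ≤ u := by
      rw [← Real.exp_nat_mul, hu]
      refine Real.exp_le_exp.2 ?_
      have := mul_le_mul_of_nonneg_right hρ.le hS0.le
      push_cast
      rw [pow_add]
      rw [hS] at this ⊢
      linarith
    rw [mul_assoc]
    exact mul_le_mul_of_nonneg_left (by linarith) (by linarith)
  have hMu : 0 < M * u := by positivity
  have hBu : 0 < B * u := by positivity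
  refine ⟨M * S, (2 * M + 3 * B) * u, by positivity, by positivity, ?_, ?_, by linarith⟩
  · rw [TwoChannel.z_eq]
    have c1 : M * u ≤ 1 := by nlinarith
    have c2 : Real.exp (M * S * D.f k) ≤ 1 + 2 * (M * u) :=
      (Real.exp_le_exp.2 hf).trans (exp_le_two hMu.le c1)
    refine (mul_le_mul c2 (show 1 + D.b (M * S) k ≤ 1 + B * u by linarith)
      (by linarith [D.b_nonneg (M * S) k]) (by linarith)).trans ?_
    nlinarith
  · rw [← mul_assoc γ']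
    exact hfin

theorem DD_scale {γ' γ : ℝ} (h0 : 0 < γ') (hγ : γ' < γ) :
    ∃ k₁ : ℕ, ∀ m, k₁ ≤ m → γ ≤ gap (Lk (m + 1)) →
      ∃ T e : ℝ, 0 < T ∧ 0 < e ∧ DD.z T (m + 1) ≤ 1 + e ∧ 54 * e ≤ Real.exp (-(γ' * T)) ∧
        2 * e ≤ 37 / 1000 := by
  have o := out_DD
  have h2 := z_range (8 / 1000) 96 o.p120 o.c120_96 (by norm_num) (by norm_num) le_rfl
    le_rfl (by norm_num) (by norm_num [TwoChannel.ex])
  obtain ⟨k₁, _, hk₁⟩ := scale DD (T₀ := 120) (by norm_num) (k₀ := 96) (by norm_num)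
    (e₀ := 8 / 1000) (r := 1 / 80) (by norm_num) (by norm_num) (by norm_num)
    ((le_exp_neg_of (a := 3) (b := 2) (by norm_num) (by norm_num) (by norm_num)).trans
      (le_of_eq (by congr 1; norm_num))) h2 h0 hγ
  refine ⟨max k₁ 6, fun m hm hg => ?_⟩
  have hm6 : 6 ≤ m + 1 := by have := le_of_max_le_right hm; omega
  obtain ⟨S, hS, _, hb⟩ := DD_b' hm6
  obtain ⟨i₀, hi₀⟩ := DD.exists_E0 (m + 1)
  refine hk₁ (m + 1) (by have := le_of_max_le_left hm; omega) i₀ hi₀ fun i hi => ?_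
  obtain ⟨_, q2, _⟩ := gap_ge_of (hps := fun _ hT => PS_zF hT.le) (γ := 1 / 25) (k₀ := 6)
    (fun _ hk i hi => DD_gap hk i hi) (Lk (m + 1)) ⟨m + 1, by unfold Lk; omega⟩
    (by unfold Lk; omega) (by unfold Lk; omega)
  have h3 : DD.E (m + 1) i ∈ energies (Lk (m + 1)) := by
    rw [energies_eq (Lk (m + 1)) (two_le_Lk _)]; exact ⟨i, rfl⟩
  have h4 : DD.E (m + 1) i ≠ DD.E0 (m + 1) := fun h5 =>
    hi (TwoChannel.unique_of_b (D := DD) hb h5 hi₀)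
  have h5 := q2.2 ⟨h3, by rw [← DD_E0]; exact lt_of_le_of_ne (DD.E0_le _ i) h4.symm⟩
  unfold gap at hg
  rw [DD_E0]
  linarith

/-- a gap at one large length propagates to all larger lengths -/
theorem gap_prop {γ' γ : ℝ} (h0 : 0 < γ') (hγ : γ' < γ) :
    ∃ k₁ : ℕ, ∀ m, k₁ ≤ m → γ ≤ gap (2 * m + 4) → ∀ m', m ≤ m' → γ' ≤ gap (2 * m' + 4) := by
  obtain ⟨k₁, hk₁⟩ := DD_scale h0 hγ
  refine ⟨k₁, fun m hm hg m' hm' => ?_⟩
  obtain ⟨T, e, hT, he, hz, h1, h2⟩ := hk₁ (m + 1) (by omega) hg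
  refine (gap_ge_of (hps := fun _ hT => PS_zF hT.le) (k₀ := m + 1 + 1) (fun k hk i hi => ?_)
    (2 * m' + 4) ⟨m' + 2, by ring⟩ (by omega) (by omega)).2.2
  obtain ⟨S, s1, _, s3⟩ := z_of_rate DD hT (by omega) he.le (by linarith) (r := γ')
    (by linarith) hz hk
  exact TwoChannel.gap_of_b (D := DD) (by linarith)
    (TwoChannel.s_zb _ s3 (by linarith) (by omega)) i hi

/-- **the gaps converge** -/
theorem gap_tendsto : ∃ Δ : ℝ, Tendsto (fun m : ℕ => gap (2 * m + 4)) atTop (𝓝 Δ) ∧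
    Delta1 = Δ ∧ 1 / 25 ≤ Δ ∧ Δ ≤ 2 := by
  have h1 : Tendsto (fun m : ℕ => ((gap (2 * m + 4) : ℝ) : EReal)) atTop (𝓝 Delta1) := by
    refine tendsto_of_le_liminf_of_limsup_le le_rfl ?_
    by_contra hcon
    push Not at hcon
    obtain ⟨γ', a1, a2⟩ := EReal.lt_iff_exists_real_btwn.1 hcon
    obtain ⟨γ, a3, a4⟩ := EReal.lt_iff_exists_real_btwn.1 a2
    have h0 : 0 < γ' := by
      have := EReal.coe_lt_coe_iff.1 (Delta1_ge_25.trans_lt a1)
      linarith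
    obtain ⟨k₁, hk₁⟩ := gap_prop h0 (EReal.coe_lt_coe_iff.1 a3)
    obtain ⟨m, hm1, hm2⟩ := ((frequently_lt_of_lt_limsup (by isBoundedDefault) a4).and_eventually
      (eventually_ge_atTop k₁)).exists
    refine absurd a1 (not_lt.2 ?_)
    refine Filter.le_liminf_of_le (by isBoundedDefault) ?_
    filter_upwards [eventually_ge_atTop m] with m' hm'
    exact EReal.coe_le_coe_iff.2 (hk₁ m hm2 (EReal.coe_lt_coe_iff.1 hm1).le m' hm')
  have h2 : Delta1 ≤ ((2 : ℝ) : EReal) := by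
    refine le_of_tendsto h1 ?_
    filter_upwards [eventually_ge_atTop 4] with m hm
    exact EReal.coe_le_coe_iff.2 (gap_le_two ⟨m + 2, by ring⟩ (by omega))
  have h3 : ((Delta1.toReal : ℝ) : EReal) = Delta1 :=
    EReal.coe_toReal (ne_top_of_le_ne_top (EReal.coe_ne_top _) h2)
      (ne_bot_of_le_ne_bot (EReal.coe_ne_bot _) Delta1_ge_25)
  refine ⟨Delta1.toReal, ?_, h3.symm, ?_, ?_⟩
  · rw [← h3] at h1
    exact EReal.tendsto_coe.1 h1
  · exact EReal.coe_le_coe_iff.1 (by rw [h3]; exact Delta1_ge_25)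
  · exact EReal.coe_le_coe_iff.1 (by rw [h3]; exact h2)

/-- **lower semicontinuity** of the limit gap at the Heisenberg point -/
theorem gap_lsc {Δ : ℝ} (hΔ : Tendsto (fun m : ℕ => gap (2 * m + 4)) atTop (𝓝 Δ)) {γ : ℝ}
    (h0 : 0 < γ) (hγ : γ < Δ) :
    ∃ δ : ℝ, 0 < δ ∧ δ ≤ 1 ∧ ∃ L₀ : ℕ, ∀ J b D h, Near δ J b D h →
      ∀ (L : ℕ) [NeZero L], Even L → L₀ ≤ L →
      ∃ (E : ℝ) (ψ : (Fin L → Fin 3) → ℂ), ψ ≠ 0 ∧ (chainH J b D h L).mulVec ψ = (E : ℂ) • ψ ∧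
        ∀ (μ : ℂ) (φ : (Fin L → Fin 3) → ℂ), (chainH J b D h L).mulVec φ = μ • φ →
          (∃ c : ℂ, φ = c • ψ) ∨ (μ.im = 0 ∧ E + γ ≤ μ.re) := by
  obtain ⟨k₁, hk₁⟩ := DD_scale h0 (show γ < (γ + Δ) / 2 by linarith)
  obtain ⟨m, hm1, hm2⟩ := ((hΔ.eventually_const_le (show (γ + Δ) / 2 < Δ by linarith)).and
    (eventually_ge_atTop k₁)).exists
  obtain ⟨T, e, hT, he, hz, h1, h2⟩ := hk₁ (m + 1) (by omega) hm1
  have hTk : (0 : ℝ) < T * ((m + 1 + 1 : ℕ) : ℝ) := by positivity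
  refine ⟨min 1 (e / (840 * (T * ((m + 1 + 1 : ℕ) : ℝ)))), lt_min one_pos (by positivity),
    min_le_left _ _, 2 * (m + 1 + 1), fun J b D h H L _ hev hL => ?_⟩
  obtain ⟨l, rfl, hl⟩ := even_Lk hev (by omega)
  set δ := min 1 (e / (840 * (T * ((m + 1 + 1 : ℕ) : ℝ)))) with hδ
  have hδ0 : 0 < δ := lt_min one_pos (by positivity)
  have h3 : 2 * (105 * δ) * (T * ((m + 1 + 1 : ℕ) : ℝ)) ≤ e / 4 := by
    have h4 : δ ≤ e / (840 * (T * ((m + 1 + 1 : ℕ) : ℝ))) := min_le_right _ _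
    rw [le_div_iff₀ (by positivity)] at h4
    linarith
  have h4 := z_le_of (chan_Z H).1 (chan_Z H).2 (show 1 ≤ m + 1 + 1 by omega) hT
  have h5 : (chan H).z T (m + 1 + 1) ≤ 1 + 2 * e := by
    have h6 := (Real.exp_le_exp.2 h3).trans (exp_le_two (by positivity) (by linarith))
    refine h4.trans ((mul_le_mul h6 hz (DD.z_pos _ _).le (by positivity)).trans ?_)
    nlinarith
  obtain ⟨S, s1, _, s3⟩ := z_of_rate (chan H) hT (by omega) (by linarith) h2 (r := γ)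
    (by linarith) h5 (show m + 1 + 1 ≤ l + 1 by omega)
  obtain ⟨ψ, p⟩ := ring_of_b H (by linarith) h0 (TwoChannel.s_zb _ s3 (by linarith) (by omega))
  exact ⟨_, ψ, p⟩

theorem stable' (J : ZMod 2 → Fin 3 → ℝ) (b : ZMod 2 → ℝ) (D h : Fin 3 → ℝ)
    (H : Close (1 / 10 ^ 9) J b D h) : ∃ e : ℝ, ∀ (L : ℕ) [NeZero L], Even L → 12 ≤ L →
      ∃ E : ℝ, UniqueGap (chainH J b D h L) E (1 / 80) ∧
        0 ≤ e * L - E ∧ e * L - E ≤ Real.exp (-(L / 256)) := by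
  obtain ⟨e, he⟩ := stable ⟨by norm_num, H.1, H.2.1, H.2.2.1, H.2.2.2⟩
  refine ⟨e, fun L _ hev hL => ?_⟩
  obtain ⟨E, ψ, p1, p2, p3, p4⟩ := he L hev hL
  exact ⟨E, ⟨ψ, p1, p2, p3⟩, p4⟩

theorem limit_lsc : ∃ Δ : ℝ,
    (Tendsto (fun m : ℕ => gap (2 * m + 4)) atTop (𝓝 Δ) ∧ Delta1 = Δ ∧ 1 / 25 ≤ Δ ∧ Δ ≤ 2) ∧
    ∀ γ : ℝ, γ < Δ → ∃ δ : ℝ, 0 < δ ∧ ∃ L₀ : ℕ, ∀ J b D h, Close δ J b D h →
      ∀ (L : ℕ) [NeZero L], Even L → L₀ ≤ L → ∃ E : ℝ, UniqueGap (chainH J b D h L) E γ := by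
  obtain ⟨Δ, h1, h2, h3, h4⟩ := gap_tendsto
  refine ⟨Δ, ⟨h1, h2, h3, h4⟩, fun γ hγ => ?_⟩
  obtain ⟨δ, d0, d1, L₀, hL₀⟩ := gap_lsc h1 (γ := max γ (Δ / 2))
    (lt_max_of_lt_right (by linarith)) (max_lt hγ (by linarith))
  refine ⟨δ, d0, L₀, fun J b D h H L _ hev hL => ?_⟩
  obtain ⟨E, ψ, p1, p2, p3⟩ := hL₀ J b D h ⟨d1, H.1, H.2.1, H.2.2.1, H.2.2.2⟩ L hev hL
  refine ⟨E, ψ, p1, p2, fun μ φ hφ => (p3 μ φ hφ).imp id fun q => ⟨q.1, ?_⟩⟩
  linarith [q.2, le_max_left γ (Δ / 2)]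

end

end Vale.Agent.N348
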