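import Vale.Agent.N348.Ring

/-! Stability of the gap. -/

set_option linter.unusedSectionVars false

namespace Vale.Agent.N348

open Vale.Agent.P348 Matrix Finset Filter Topology

noncomputable section

/-- parameters close to those of the Heisenberg chain -/
structure Near (δ : ℝ) (J : ZMod 2 → Fin 3 → ℝ) (b : ZMod 2 → ℝ) (D h : Fin 3 → ℝ) : Prop where
  hδ : δ ≤ 1
  hJ : ∀ p a, |J p a - 1| ≤ δ
  hb : ∀ p, 0 ≤ b p ∧ b p ≤ δ
  hD : ∀ a, |D a| ≤ δ
  hh : ∀ a, |h a| ≤ δ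

variable {δ : ℝ} {J : ZMod 2 → Fin 3 → ℝ} {b : ZMod 2 → ℝ} {D h : Fin 3 → ℝ}

theorem Near.hb' (H : Near δ J b D h) (p : ZMod 2) : |b p| ≤ δ := by
  rw [abs_of_nonneg (H.hb p).1]; exact (H.hb p).2

theorem Near.J_nonneg (H : Near δ J b D h) (p : ZMod 2) (a : Fin 3) : 0 ≤ J p a := by
  have := (abs_le.1 (H.hJ p a)).1
  linarith [H.hδ]

theorem Lk_cast {k : ℕ} (hk : 1 ≤ k) : ((Lk k : ℕ) : ℝ) = 2 * k := by
  rw [Lk_eq hk]; push_cast; ring

/-- the two-channel structure of the perturbed rings -/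
def chan (H : Near δ J b D h) : TwoChannel where
  ι k := Fin (Lk k) → Fin 3
  fin := fun _ => inferInstance
  ne := fun _ => inferInstance
  E k := (chainH_herm J b D h (Lk k)).eigenvalues
  ps T hT := by
    have h1 := isPS_XP (lett (J 1) (b 1)) (lett (J 0) (b 0))
      (-(∑ a, D a • (spin a * spin a) + ∑ a, h a • spin a)) hT.le
    have h2 : ∀ k, (NormedSpace.exp (T • XP (lett (J 1) (b 1)) (lett (J 0) (b 0))
        (-(∑ a, D a • (spin a * spin a) + ∑ a, h a • spin a)) (2 * (k - 1) + 1))).trace.re =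
        ∑ i, Real.exp (-(T * (chainH_herm J b D h (Lk k)).eigenvalues i)) := by
      intro k
      rw [← chainH_eq_XP (by omega) ⟨k - 1 + 1, by omega⟩ H.J_nonneg (fun p => (H.hb p).1),
        ← Complex.ofReal_re (∑ i, _), ← trace_expC, smul_neg, neg_smul, Complex.coe_smul]
    simp only [h2] at h1
    exact h1
  bdd := by
    refine ⟨210, fun k hk => ⟨fun _ => 0, ?_⟩⟩
    have hJ : ∀ p a, |J p a| ≤ 2 := fun p a => by
      have := abs_le.1 (H.hJ p a)
      rw [abs_le]; constructor <;> linarith [this.1, this.2, H.hδ]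
    have h12 : δ ≤ 2 := H.hδ.trans (by norm_num)
    refine eig_le _ ((chainH_rowB hJ (fun p => (H.hb' p).trans h12)
      (fun a => (H.hD a).trans h12) (fun a => (H.hh a).trans h12)).mono (le_of_eq ?_)) _
    rw [Lk_cast hk]
    ring

theorem haldaneH_herm (L : ℕ) [NeZero L] : (haldaneH L).IsHermitian := by
  unfold Matrix.IsHermitian haldaneH
  simp only [Matrix.conjTranspose_sum, SS_ct]

theorem DD_Z_eq (T : ℝ) (k : ℕ) :
    DD.Z T k = ∑ i, Real.exp (-(T * (haldaneH_herm (Lk k)).eigenvalues i)) := by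
  have h1 := partitionFn_eq (Lk k) (by unfold Lk; omega) T
  unfold partitionFn at h1
  rw [trace_expC (haldaneH_herm (Lk k))] at h1
  exact (Complex.ofReal_injective h1).symm

theorem chan_Z (H : Near δ J b D h) :
    (∀ k, 1 ≤ k → ∀ T : ℝ, 0 < T →
      DD.Z T k ≤ Real.exp (T * (105 * δ * k)) * (chan H).Z T k) ∧
    (∀ k, 1 ≤ k → ∀ T : ℝ, 0 < T →
      (chan H).Z T k ≤ Real.exp (T * (105 * δ * k)) * DD.Z T k) := by
  have key : ∀ k, 1 ≤ k →
      RowB (chainH J b D h (Lk k) - haldaneH (Lk k)) (105 * δ * k) := by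
    intro k hk
    rw [chainH_sub]
    refine (chainH_rowB H.hJ H.hb' H.hD H.hh).mono (le_of_eq ?_)
    rw [Lk_cast hk]
    ring
  constructor
  · intro k hk T hT
    rw [DD_Z_eq]
    exact sum_exp_le (chainH_herm J b D h (Lk k)) (haldaneH_herm (Lk k)) (key k hk) hT.le
  · intro k hk T hT
    rw [DD_Z_eq]
    refine sum_exp_le (haldaneH_herm (Lk k)) (chainH_herm J b D h (Lk k)) ?_ hT.le
    rw [← neg_sub]
    exact (key k hk).neg

theorem chan_z (H : Near (1 / 10 ^ 9) J b D h) {k : ℕ} (hk : 1 ≤ k) {T w u : ℝ} (hT : 0 < T)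
    (hz : DD.z T k ≤ 1 + w) (hu : 21 / 10 ^ 8 * (T * k) ≤ u) (hu1 : u ≤ 1) :
    (chan H).z T k ≤ TwoChannel.ex u * (1 + w) := by
  have h1 := z_le_of (chan_Z H).1 (chan_Z H).2 hk hT
  have h0 : (0 : ℝ) ≤ 21 / 10 ^ 8 * (T * k) := by positivity
  have h2 : Real.exp (2 * (105 * (1 / 10 ^ 9)) * (T * k)) ≤ TwoChannel.ex u := by
    refine le_trans (Real.exp_le_exp.2 ?_) (TwoChannel.exp_le_ex (h0.trans hu) hu1)
    linarith
  exact h1.trans (mul_le_mul h2 hz (DD.z_pos _ _).le ((Real.exp_pos _).le.trans h2))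

open TwoChannel in
theorem z_range {D : TwoChannel} {T p γ : ℝ} (w : ℝ) {j : ℕ} (m : ℕ) {l : ℕ} (hp : D.ph T ≤ p)
    (hc : D.c T j ≤ γ) (hT : 0 < T) (hj : 1 ≤ j) (hjl : j ≤ l) (hlm : l ≤ m) (hq : m * p ≤ 1)
    (hw : ex (m * p) * (1 + γ) ≤ 1 + w) : D.z T l ≤ 1 + w := by
  have hl : 1 ≤ l := hj.trans hjl
  have h0 := D.ph_nonneg hT
  have h1 : (l : ℝ) * p ≤ m * p :=
    mul_le_mul_of_nonneg_right (by exact_mod_cast hlm) (h0.trans hp)
  have h2 : 0 ≤ (l : ℝ) * p := mul_nonneg (Nat.cast_nonneg _) (h0.trans hp)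
  have h3 := s_cm l hc hT hj hjl
  have h4 := D.c_nonneg hT hl
  exact s_pc _ hp h3 hT hl (h1.trans hq)
    ((mul_le_mul_of_nonneg_right (ex_mono h2 h1) (by linarith)).trans hw)

open TwoChannel in
/-- at every length `2 l ≥ 12` some time certifies the gap `1/80` -/
theorem chan_b (H : Near (1 / 10 ^ 9) J b D h) {l : ℕ} (hl : 6 ≤ l) :
    ∃ S w : ℝ, 0 < S ∧ (chan H).z S l ≤ 1 + w ∧ w ≤ Real.exp (-(1 / 80 * S)) ∧
      w ≤ S * Real.exp (-(l / 128)) := by
  have o := out_DD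
  have aux : ∀ (T w w' : ℝ) (m : ℕ), 3 ≤ T → l ≤ m → m ≤ 96 → DD.z T l ≤ 1 + w →
      21 / 10 ^ 8 * (T * m) ≤ 1 → ex (21 / 10 ^ 8 * (T * m)) * (1 + w) ≤ 1 + w' →
      w' ≤ 1 - 1 / 80 * T → w' ≤ 3 / 4 →
      ∃ S w : ℝ, 0 < S ∧ (chan H).z S l ≤ 1 + w ∧ w ≤ Real.exp (-(1 / 80 * S)) ∧
        w ≤ S * Real.exp (-(l / 128)) := by
    intro T w w' m hT hlm hm hz h1 h2 h3 h5
    have hlm' : (l : ℝ) ≤ m := by exact_mod_cast hlm
    have hm' : (m : ℝ) ≤ 96 := by exact_mod_cast hm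
    have h4 := chan_z H (by omega) (by linarith) hz (u := 21 / 10 ^ 8 * (T * m)) (by gcongr) h1
    refine ⟨T, w', by linarith, h4.trans h2, ?_, ?_⟩
    · have := Real.add_one_le_exp (-(1 / 80 * T))
      linarith
    · have := Real.add_one_le_exp (-((l : ℝ) / 128))
      nlinarith
  by_cases h1 : 96 ≤ l
  · have h2 := z_range (5451 / 1000000) 96 o.p120 o.c120_96 (by norm_num) (by norm_num) le_rfl
      le_rfl (by norm_num) (by norm_num [ex])
    have h3 := chan_z H (by norm_num) (by norm_num) h2 (u := 242 / 100000) (by norm_num)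
      (by norm_num)
    obtain ⟨S, s1, s2, s3⟩ := z_of_rate (chan H) (T₀ := 120) (by norm_num) (k₀ := 96)
      (by norm_num) (e₀ := 8 / 1000) (r := 1 / 80) (by norm_num) (by norm_num)
      ((le_exp_neg_of (a := 3) (b := 2) (by norm_num) (by norm_num) (by norm_num)).trans
        (le_of_eq (by congr 1; norm_num))) (h3.trans (by norm_num [ex])) h1
    refine ⟨S, _, by linarith, s3, le_rfl, ?_⟩
    have h4 : Real.exp (-(1 / 80 * S)) ≤ Real.exp (-((l : ℝ) / 128)) := by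
      refine Real.exp_le_exp.2 ?_
      push_cast at s2
      linarith
    exact h4.trans (le_mul_of_one_le_left (Real.exp_pos _).le (by linarith))
  by_cases h4 : 24 ≤ l
  · exact aux 30 (27 / 100) (3 / 10) 96 (by norm_num) (by omega) le_rfl
      (z_range _ 96 o.p30 o.c30_24 (by norm_num) (by norm_num) h4 (by omega) (by norm_num)
        (by norm_num [ex])) (by norm_num) (by norm_num [ex]) (by norm_num) (by norm_num)
  by_cases h5 : 12 ≤ l
  · exact aux 15 (45 / 100) (5 / 10) 24 (by norm_num) (by omega) (by norm_num)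
      (z_range _ 24 o.p15 o.c15_12 (by norm_num) (by norm_num) h5 (by omega) (by norm_num)
        (by norm_num [ex])) (by norm_num) (by norm_num [ex]) (by norm_num) (by norm_num)
  push Not at h5
  have hz : DD.z (15 / 2) l ≤ 1 + 61888 / 100000 := by
    have h := (DD.ps_z (T := 15 / 2) (by norm_num)).chord (k := 6) (l := l) (m := 12)
      (by norm_num) hl h5.le
    obtain ⟨h1, h2, _⟩ := z_small
    have e1 : (6 : ℝ) ≤ l := by exact_mod_cast hl
    have e2 : (l : ℝ) ≤ 12 := by exact_mod_cast h5.le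
    push_cast at h
    have h3 := mul_le_mul_of_nonneg_left h1 (sub_nonneg.2 e2)
    have h4 := mul_le_mul_of_nonneg_left (h2.trans (show (1 : ℝ) + 34205 / 100000 ≤
      1 + 61888 / 100000 by norm_num)) (sub_nonneg.2 e1)
    linarith
  exact aux (15 / 2) _ (65 / 100) 12 (by norm_num) h5.le (by norm_num) hz (by norm_num)
    (by norm_num [ex]) (by norm_num) (by norm_num)

/-- from a bound of the excited part to the ring -/
theorem ring_of_b (H : Near δ J b D h) {m : ℕ} {S γ : ℝ} (hS : 0 < S) (hγ : 0 < γ)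
    (hb : (chan H).b S (m + 1) ≤ Real.exp (-(γ * S))) :
    ∃ ψ : (Fin (Lk (m + 1)) → Fin 3) → ℂ, ψ ≠ 0 ∧
      (chainH J b D h (Lk (m + 1))).mulVec ψ = (((chan H).E0 (m + 1) : ℝ) : ℂ) • ψ ∧
      ∀ (μ : ℂ) (φ : (Fin (Lk (m + 1)) → Fin 3) → ℂ),
        (chainH J b D h (Lk (m + 1))).mulVec φ = μ • φ →
          (∃ c : ℂ, φ = c • ψ) ∨ (μ.im = 0 ∧ (chan H).E0 (m + 1) + γ ≤ μ.re) := by
  have hb1 : (chan H).b S (m + 1) < 1 :=
    hb.trans_lt (Real.exp_lt_one_iff.2 (neg_neg_of_pos (mul_pos hγ hS)))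
  obtain ⟨i₀, hi₀⟩ := (chan H).exists_E0 (m + 1)
  rw [← hi₀]
  exact gap_form (chainH_herm J b D h (Lk (m + 1))) i₀ (fun i hi => by
    have h5 := TwoChannel.gap_of_b (D := chan H) hS hb i
      (fun h6 => hi (TwoChannel.unique_of_b (D := chan H) hb1 h6 hi₀))
    rw [← hi₀] at h5
    exact h5)

/-- **stability of the gap** -/
theorem stable (H : Near (1 / 10 ^ 9) J b D h) :
    ∃ e : ℝ, ∀ (L : ℕ) [NeZero L], Even L → 12 ≤ L →
    ∃ (E : ℝ) (ψ : (Fin L → Fin 3) → ℂ), ψ ≠ 0 ∧ (chainH J b D h L).mulVec ψ = (E : ℂ) • ψ ∧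
      (∀ (μ : ℂ) (φ : (Fin L → Fin 3) → ℂ), (chainH J b D h L).mulVec φ = μ • φ →
        (∃ c : ℂ, φ = c • ψ) ∨ (μ.im = 0 ∧ E + 1 / 80 ≤ μ.re)) ∧
      0 ≤ e * L - E ∧ e * L - E ≤ Real.exp (-(L / 256)) := by
  refine ⟨(chan H).e0 / 2, fun L _ hev hL => ?_⟩
  obtain ⟨m, rfl, hm⟩ := even_Lk hev (by omega)
  have hm6 : 6 ≤ m + 1 := by omega
  obtain ⟨S, w, hS, hz, hw1, hw2⟩ := chan_b H hm6
  obtain ⟨ψ, p1, p2, p3⟩ := ring_of_b H hS (by norm_num)
    ((TwoChannel.s_zb w hz hS (by omega)).trans hw1)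
  have hf : (chan H).e0 / 2 * (Lk (m + 1) : ℕ) - (chan H).E0 (m + 1) = (chan H).f (m + 1) := by
    rw [Lk_cast (by omega), TwoChannel.f]
    ring
  refine ⟨_, ψ, p1, p2, p3, ?_, ?_⟩
  · rw [hf]; exact (chan H).f_nonneg (by omega)
  · rw [hf, Lk_cast (by omega)]
    have h1 := ((chan H).exp_f_le_z S (m + 1)).trans hz
    have h2 := Real.add_one_le_exp (S * (chan H).f (m + 1))
    have h3 : (2 : ℝ) * ((m + 1 : ℕ) : ℝ) / 256 = ((m + 1 : ℕ) : ℝ) / 128 := by ring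
    rw [h3]
    exact le_of_mul_le_mul_left (by linarith) hS

end

end Vale.Agent.N348
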