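import Mathlib.Analysis.Matrix.PosDef
import Vale.Agent.N348.Cross

/-! Time reversal and the power sum structure in the length of the ring. -/

set_option linter.unusedSectionVars false

namespace Vale.Agent.N348

open Vale.Agent.P348 Matrix Finset Filter Topology
open scoped ComplexOrder

noncomputable section

def Rm : M3 := !![0, 0, 1; 0, -1, 0; 1, 0, 0]

theorem Rm_mul : Rm * Rm = 1 := by
  ext i j
  fin_cases i <;> fin_cases j <;> simp [Rm, Matrix.mul_apply, Fin.sum_univ_three]

/-- time reversal -/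
def th : M3 →+* M3 where
  toFun X := Rm * X.map (starRingEnd ℂ) * Rm
  map_one' := by rw [Matrix.map_one _ (map_zero _) (map_one _), Matrix.mul_one, Rm_mul]
  map_mul' X Y := by
    rw [Matrix.map_mul]
    simp only [Matrix.mul_assoc]
    rw [← Matrix.mul_assoc Rm Rm, Rm_mul, Matrix.one_mul]
  map_zero' := by rw [Matrix.map_zero _ (map_zero _)]; simp
  map_add' X Y := by rw [Matrix.map_add _ (map_add _), Matrix.mul_add, Matrix.add_mul]

theorem th_apply (X : M3) : th X = Rm * X.map (starRingEnd ℂ) * Rm := rfl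

theorem th_trace (X : M3) : (th X).trace = star X.trace := by
  rw [th_apply, Matrix.trace_mul_cycle, Rm_mul, Matrix.one_mul]
  simp [Matrix.trace]

theorem th_smul (c : ℝ) (X : M3) : th (c • X) = c • th X := by
  have : (c • X).map (starRingEnd ℂ) = c • X.map (starRingEnd ℂ) := by
    ext i j; simp
  rw [th_apply, th_apply, this, Matrix.mul_smul, Matrix.smul_mul]

theorem th_spin (a : Fin 3) : th (spin a) = -spin a := by
  rw [th_apply]
  ext i j
  fin_cases a <;> fin_cases i <;> fin_cases j <;>
    simp [Rm, spin, Matrix.mul_apply, Fin.sum_univ_three, Matrix.vecMul, dotProduct]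

variable {Γ : Type} [Fintype Γ] [DecidableEq Γ]

theorem th_slotG (P Q : Γ → M3) (C : M3) (t : ℝ) (c d : Option Γ) :
    slotG (fun a => th (Q a)) (fun a => th (P a)) (th C) t c d = th (slotG P Q C t d c) := by
  unfold slotG
  rw [map_mul, map_add, map_one, th_smul, th_smul, mul_comm (Real.sqrt t ^ wt c)]
  congr 2
  cases c <;> cases d <;> simp [slot0]

theorem Kg_th (P Q : Γ → M3) (C : M3) (N : ℕ) (t : ℝ) :
    Kg (fun a => th (Q a)) (fun a => th (P a)) (th C) N t = (Kg P Q C N t)ᴴ := by
  ext p q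
  simp only [Kg, Matrix.conjTranspose_apply, th_slotG]
  rw [← th_trace, map_list_prod, List.map_ofFn]
  rfl

section mat
variable {m : Type} [Fintype m] [DecidableEq m]

theorem spec {A : Matrix m m ℂ} (hA : A.IsHermitian) :
    ∃ U : Matrix m m ℂ, U * star U = 1 ∧ star U * U = 1 ∧
      A = U * diagonal (fun i => ((hA.eigenvalues i : ℝ) : ℂ)) * star U := by
  refine ⟨hA.eigenvectorUnitary, Unitary.coe_mul_star_self _, Unitary.coe_star_mul_self _, ?_⟩
  have h := hA.spectral_theorem
  rw [Unitary.conjStarAlgAut_apply] at h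
  exact h

theorem trace_powC {A : Matrix m m ℂ} (hA : A.IsHermitian) (k : ℕ) :
    (A ^ k).trace = ((∑ i, hA.eigenvalues i ^ k : ℝ) : ℂ) := by
  obtain ⟨U, h1, h2, h3⟩ := spec hA
  have h4 : ∀ G : Matrix m m ℂ, (U * G * star U) ^ k = U * G ^ k * star U := by
    intro G
    induction k with
    | zero => simp [h1]
    | succ k ih =>
      rw [pow_succ, ih, pow_succ]
      simp only [Matrix.mul_assoc]
      rw [← Matrix.mul_assoc (star U) U, h2, Matrix.one_mul]
  have h5 := congrArg (· ^ k) h3
  simp only [h4] at h5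
  rw [h5, Matrix.trace_mul_cycle, h2, Matrix.one_mul, Matrix.diagonal_pow, Matrix.trace_diagonal]
  simp

theorem trace_expC {A : Matrix m m ℂ} (hA : A.IsHermitian) (T : ℝ) :
    (NormedSpace.exp ((-(T : ℂ)) • A)).trace =
      ((∑ i, Real.exp (-(T * hA.eigenvalues i)) : ℝ) : ℂ) := by
  obtain ⟨U, h1, h2, h3⟩ := spec hA
  have hinv : U⁻¹ = star U := Matrix.inv_eq_right_inv h1
  have hunit : IsUnit U := ⟨⟨U, star U, h1, h2⟩, rfl⟩
  have h4 : (-(T : ℂ)) • A =
      U * ((-(T : ℂ)) • diagonal (fun i => ((hA.eigenvalues i : ℝ) : ℂ))) * U⁻¹ := by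
    rw [hinv, Matrix.mul_smul, Matrix.smul_mul, ← h3]
  rw [h4, Matrix.exp_conj U _ hunit, Matrix.trace_mul_cycle, hinv, h2, Matrix.one_mul,
    ← Matrix.diagonal_smul, Matrix.exp_diagonal, Matrix.trace_diagonal]
  push_cast
  refine Finset.sum_congr rfl fun i _ => ?_
  rw [Pi.coe_exp, Complex.exp_eq_exp_ℂ]
  simp only [Pi.smul_apply, smul_eq_mul, neg_mul]

end mat

/-- the value on the even sites and the one on the odd sites -/
def alt {α : Type} {L : ℕ} (u v : α) (x : Fin L) : α := if Even (x : ℕ) then u else v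

/-- minus the Hamiltonian of a reflection positive ring of period two -/
def XP (P Q : Γ → M3) (C : M3) (n : ℕ) : Matrix (Fin (n + 1) → Fin 3) (Fin (n + 1) → Fin 3) ℂ :=
  XG (alt P (fun a => th (Q a))) (alt Q (fun a => th (P a))) (alt C (th C))

theorem prod_alt' {R : Type} [Monoid R] (a b : R) {k L : ℕ} (h : L = 2 * k) :
    (List.ofFn (fun i : Fin L => alt a b i)).prod = (a * b) ^ k := by
  subst h
  exact prod_alt a b k

/-- **power sums in the length** for the partition functions of the even rings -/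
theorem isPS_XP (P Q : Γ → M3) (C : M3) {T : ℝ} (hT : 0 ≤ T) :
    IsPS (fun k => (NormedSpace.exp (T • XP P Q C (2 * (k - 1) + 1))).trace.re) := by
  have hps := fun N : ℕ => Matrix.posSemidef_self_mul_conjTranspose (Kg P Q C N (T / N))
  refine ⟨fun N => Fin N → Option Γ, fun N => inferInstance,
    fun N i => (hps N).1.eigenvalues i, fun N i => (hps N).eigenvalues_nonneg i,
    fun k hk => ?_⟩
  have h2 : Continuous (fun M : Matrix (Fin (2 * (k - 1) + 1 + 1) → Fin 3)
      (Fin (2 * (k - 1) + 1 + 1) → Fin 3) ℂ => M.trace.re) := by fun_prop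
  have h3 := (h2.tendsto _).comp (Ur_trotter (n := 2 * (k - 1) + 1)
    (alt P (fun a => th (Q a))) (alt Q (fun a => th (P a))) (alt C (th C)) (by omega) hT)
  refine h3.congr (fun N => ?_)
  simp only [Function.comp]
  rw [ring_crossG]
  have h4 : (fun x : Fin (2 * (k - 1) + 1 + 1) => Kg (alt P (fun a => th (Q a)) x)
      (alt Q (fun a => th (P a)) x) (alt C (th C) x) N (T / N)) =
      fun x => alt (Kg P Q C N (T / N)) (Kg P Q C N (T / N))ᴴ x := by
    funext x
    unfold alt
    split_ifs
    · rfl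
    · exact Kg_th P Q C N _
  rw [h4, prod_alt' _ _ (k := k) (by omega), trace_powC (hps N).1, Complex.ofReal_re]

end

end Vale.Agent.N348
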