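import Vale.Agent.N348.Cmp
import Vale.Agent.N348.Defs

/-! The perturbed ring: hermiticity, size of the perturbation, reflection positive form. -/

set_option linter.unusedSectionVars false

namespace Vale.Agent.N348

open Vale.Agent.P348 Matrix Finset Filter Topology

noncomputable section

variable {L : ℕ}

theorem spin_herm (a : Fin 3) : (spin a)ᴴ = spin a := by
  ext i j
  fin_cases a <;> fin_cases i <;> fin_cases j <;> simp [spin, Matrix.conjTranspose_apply]

theorem onSite_ct (x : Fin L) (A : M3) : (onSite x A)ᴴ = onSite x Aᴴ := by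
  ext s t
  simp only [onSite, Matrix.conjTranspose_apply]
  by_cases h : ∀ i, i ≠ x → s i = t i
  · rw [if_pos h, if_pos (fun i hi => (h i hi).symm)]
  · rw [if_neg h, if_neg (fun h' => h fun i hi => (h' i hi).symm), star_zero]

theorem onSite_sum {κ : Type} [Fintype κ] (x : Fin L) (A : κ → M3) :
    onSite x (∑ k, A k) = ∑ k, onSite x (A k) := by
  ext s t
  simp only [onSite, Matrix.sum_apply]
  split_ifs <;> simp

theorem onSite_neg (x : Fin L) (A : M3) : onSite x (-A) = -onSite x A := by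
  ext s t
  simp only [onSite, Matrix.neg_apply]
  split_ifs <;> simp

theorem SS_ct (x y : Fin L) (a : Fin 3) :
    (onSite x (spin a) * onSite y (spin a))ᴴ = onSite x (spin a) * onSite y (spin a) := by
  rw [Matrix.conjTranspose_mul, onSite_ct, onSite_ct, spin_herm]
  by_cases h : x = y
  · rw [h]
  · exact (onSite_comm h _ _).symm

theorem spin_rowB (a : Fin 3) : RowB (spin a) (Real.sqrt 2) := by
  have h0 : 0 < Real.sqrt 2 := by positivity
  have h1 : (Real.sqrt 2)⁻¹ + (Real.sqrt 2)⁻¹ = Real.sqrt 2 := by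
    field_simp
    rw [Real.sq_sqrt (by norm_num)]
    norm_num
  have h2 : (Real.sqrt 2)⁻¹ ≤ Real.sqrt 2 := by
    have : 0 < (Real.sqrt 2)⁻¹ := by positivity
    linarith
  have h3 : 1 ≤ Real.sqrt 2 := Real.one_le_sqrt.2 (by norm_num)
  intro i
  fin_cases a <;> fin_cases i <;> simp [spin, Fin.sum_univ_three, abs_of_pos h0, h1, h2, h3]

theorem SS_rowB (x y : Fin L) (a : Fin 3) : RowB (onSite x (spin a) * onSite y (spin a)) 2 := by
  have := (rowB_onSite x (spin_rowB a)).mul (rowB_onSite y (spin_rowB a)) (by positivity)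
  rwa [Real.mul_self_sqrt (by norm_num)] at this

variable [NeZero L] {J : ZMod 2 → Fin 3 → ℝ} {b : ZMod 2 → ℝ} {D h : Fin 3 → ℝ}

theorem bond_ct (j : Fin L) : (bond L j)ᴴ = bond L j := by
  unfold bond
  rw [Matrix.conjTranspose_sum]
  simp only [SS_ct]

theorem bond_rowB (j : Fin L) : RowB (bond L j) 6 := by
  refine (RowB.sum (fun a => SS_rowB j (j + 1) a)).mono (le_of_eq ?_)
  norm_num

theorem chainH_herm (J : ZMod 2 → Fin 3 → ℝ) (b : ZMod 2 → ℝ) (D h : Fin 3 → ℝ) (L : ℕ)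
    [NeZero L] : (chainH J b D h L).IsHermitian := by
  unfold Matrix.IsHermitian chainH
  rw [Matrix.conjTranspose_sum]
  refine Finset.sum_congr rfl fun j _ => ?_
  rw [Matrix.conjTranspose_add, Matrix.conjTranspose_add, Matrix.conjTranspose_sub,
    Matrix.conjTranspose_smul, Matrix.conjTranspose_mul, bond_ct]
  simp only [Matrix.conjTranspose_sum, Matrix.conjTranspose_smul, SS_ct, onSite_ct, spin_herm,
    Complex.star_def, Complex.conj_ofReal, map_mul, map_pow, map_neg, map_one]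

theorem chainH_rowB {δ : ℝ} (hJ : ∀ p a, |J p a| ≤ δ) (hb : ∀ p, |b p| ≤ δ)
    (hD : ∀ a, |D a| ≤ δ) (hh : ∀ a, |h a| ≤ δ) : RowB (chainH J b D h L) (105 / 2 * δ * L) := by
  have h0 : 0 ≤ δ := (abs_nonneg _).trans (hD 0)
  have h2 : Real.sqrt 2 ≤ 3 / 2 := Real.sqrt_le_iff.2 ⟨by norm_num, by norm_num⟩
  refine (RowB.sum (η := fun _ => 105 / 2 * δ) fun j => ?_).mono (le_of_eq ?_)
  · have h3 : ∀ a, |(-1) ^ (j : ℕ) * h a| ≤ δ := fun a => by
      rw [abs_mul, abs_pow, abs_neg, abs_one, one_pow, one_mul]; exact hh a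
    have h1 := (((RowB.sum fun a => (SS_rowB j (j + 1) a).smul (hJ (j : ℕ) a)).add
      (((bond_rowB j).mul (bond_rowB j) (by norm_num)).smul (hb (j : ℕ))).neg).add
      (RowB.sum fun a => (SS_rowB j j a).smul (hD a))).add
      (RowB.sum fun a => (rowB_onSite j (spin_rowB a)).smul (h3 a))
    rw [← sub_eq_add_neg] at h1
    push_cast at h1
    refine h1.mono ?_
    simp only [Finset.sum_const, Finset.card_univ, Fintype.card_fin, nsmul_eq_mul]
    push_cast
    nlinarith
  · simp only [Finset.sum_const, Finset.card_univ, Fintype.card_fin, nsmul_eq_mul]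
    ring

theorem chainH_sub (J : ZMod 2 → Fin 3 → ℝ) (b : ZMod 2 → ℝ) (D h : Fin 3 → ℝ) :
    chainH J b D h L - haldaneH L = chainH (fun p a => J p a - 1) b D h L := by
  unfold chainH haldaneH
  rw [← Finset.sum_sub_distrib]
  refine Finset.sum_congr rfl fun i _ => ?_
  push_cast
  simp only [sub_smul, one_smul, Finset.sum_sub_distrib]
  abel

/-- the letters -/
def lett (Jc : Fin 3 → ℝ) (c : ℝ) : Fin 3 ⊕ (Fin 3 × Fin 3) → M3
  | Sum.inl a => Real.sqrt (Jc a) • spin a
  | Sum.inr p => Real.sqrt c • (spin p.1 * spin p.2)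

theorem bond_sq (hL : 2 ≤ L) (i : Fin L) : bond L i * bond L i =
    ∑ a, ∑ c, onSite i (spin a * spin c) * onSite (i + 1) (spin a * spin c) := by
  unfold bond
  rw [Finset.sum_mul_sum]
  refine Finset.sum_congr rfl fun a _ => Finset.sum_congr rfl fun c _ => ?_
  rw [← onSite_mul, ← onSite_mul, Matrix.mul_assoc, ← Matrix.mul_assoc (onSite (i + 1) (spin a)),
    onSite_comm (succ_ne hL i)]
  simp only [Matrix.mul_assoc]

theorem pair_sum (hL : 2 ≤ L) (i : Fin L) {Jc : Fin 3 → ℝ} {c : ℝ} (hJ : ∀ a, 0 ≤ Jc a)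
    (hc : 0 ≤ c) :
    (∑ α, onSite i (lett Jc c α) * onSite (i + 1) (th (lett Jc c α)) =
      -(∑ a, (Jc a : ℂ) • (onSite i (spin a) * onSite (i + 1) (spin a)) -
        (c : ℂ) • (bond L i * bond L i))) ∧
    (∑ α, onSite i (th (lett Jc c α)) * onSite (i + 1) (lett Jc c α) =
      -(∑ a, (Jc a : ℂ) • (onSite i (spin a) * onSite (i + 1) (spin a)) -
        (c : ℂ) • (bond L i * bond L i))) := by
  rw [bond_sq hL]
  simp only [Fintype.sum_sum_type, Fintype.sum_prod_type, lett, th_smul, map_mul, th_spin,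
    onSite_rsmul, onSite_neg, smul_neg, mul_neg, neg_mul, smul_mul_smul_comm,
    Real.mul_self_sqrt (hJ _), Real.mul_self_sqrt hc, Finset.sum_neg_distrib, Finset.smul_sum,
    Complex.coe_smul, neg_neg]
  constructor <;> abel

theorem even_succ (hev : Even L) (i : Fin L) :
    Even ((i + 1 : Fin L) : ℕ) ↔ ¬ Even (i : ℕ) := by
  have h1 : ((i + 1 : Fin L) : ℕ) % 2 = ((i : ℕ) + 1) % 2 := by
    have h2 : 2 ∣ L := hev.two_dvd
    rw [Fin.val_add, Nat.mod_mod_of_dvd _ h2, Fin.val_one', Nat.add_mod, Nat.mod_mod_of_dvd _ h2,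
      ← Nat.add_mod]
  rw [Nat.even_iff, Nat.even_iff, h1]
  omega

theorem chainH_eq_XP {n : ℕ} (hn : 1 ≤ n) (hev : Even (n + 1)) (hJ : ∀ p a, 0 ≤ J p a)
    (hb : ∀ p, 0 ≤ b p) :
    -chainH J b D h (n + 1) = XP (lett (J 1) (b 1)) (lett (J 0) (b 0))
      (-(∑ a, D a • (spin a * spin a) + ∑ a, h a • spin a)) n := by
  unfold chainH XP XG
  rw [← Finset.sum_neg_distrib]
  refine Finset.sum_congr rfl fun i _ => ?_
  have h1 := even_succ hev i
  by_cases hi : Even (i : ℕ)
  · have h2 : ¬ Even ((i + 1 : Fin (n + 1)) : ℕ) := fun h3 => h1.1 h3 hi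
    have h3 : ((i : ℕ) : ZMod 2) = 0 := ZMod.natCast_eq_zero_iff_even.2 hi
    simp only [alt, if_pos hi, if_neg h2, h3, hi.neg_one_pow, one_mul]
    rw [(pair_sum (by omega) i (hJ 0) (hb 0)).1]
    simp only [onSite_neg, onSite_add, onSite_sum, onSite_rsmul, onSite_mul, Complex.coe_smul]
    abel
  · have h2 : Even ((i + 1 : Fin (n + 1)) : ℕ) := h1.2 hi
    have h4 : Odd (i : ℕ) := Nat.not_even_iff_odd.1 hi
    have h3 : ((i : ℕ) : ZMod 2) = 1 := ZMod.natCast_eq_one_iff_odd.2 h4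
    simp only [alt, if_pos h2, if_neg hi, h3, h4.neg_one_pow, neg_mul, one_mul]
    rw [(pair_sum (by omega) i (hJ 1) (hb 1)).2]
    simp only [map_neg, map_add, map_sum, th_smul, map_mul, th_spin, neg_mul_neg, onSite_neg,
      onSite_add, onSite_sum, onSite_rsmul, onSite_mul, Complex.coe_smul, neg_smul, smul_neg]
    abel

end

end Vale.Agent.N348
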