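import Vale.Agent.N348.Main

/-! An upper bound of the gap from a sum rule. -/

set_option linter.unusedSectionVars false

namespace Vale.Agent.N348

open Vale.Agent.P348 Matrix Finset Filter Topology
open scoped ComplexOrder

noncomputable section

section mat
variable {m : Type} [Fintype m] [DecidableEq m]

theorem form_ge {A : Matrix m m ℂ} (hA : A.IsHermitian) (φ : m → ℂ) (c : ℝ)
    (h : ∀ (μ : ℝ) (v : m → ℂ), v ≠ 0 → A.mulVec v = (μ : ℂ) • v → c ≤ μ ∨ star v ⬝ᵥ φ = 0) :
    c * (star φ ⬝ᵥ φ).re ≤ (star φ ⬝ᵥ A.mulVec φ).re := by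
  obtain ⟨V, hVV, hVV', h1⟩ := spec hA
  set G := diagonal (fun i => ((hA.eigenvalues i : ℝ) : ℂ)) with hG
  have h2 : A * V = V * G := by
    rw [congrArg (· * V) h1, Matrix.mul_assoc, hVV', Matrix.mul_one]
  set w := (star V).mulVec φ with hw
  have h3 : ∀ M : Matrix m m ℂ, star φ ⬝ᵥ (V * M * star V).mulVec φ = star w ⬝ᵥ M.mulVec w := by
    intro M
    rw [hw, Matrix.star_mulVec, ← Matrix.dotProduct_mulVec, Matrix.mulVec_mulVec,
      Matrix.mulVec_mulVec, ← Matrix.star_eq_conjTranspose, star_star]
  have h4 := h3 1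
  rw [Matrix.mul_one, hVV, Matrix.one_mulVec, Matrix.one_mulVec] at h4
  have h5 := h3 G
  rw [← h1] at h5
  rw [h4, h5]
  simp only [dotProduct, Complex.re_sum, Finset.mul_sum, hG, Matrix.mulVec_diagonal]
  refine Finset.sum_le_sum fun i _ => ?_
  have h6 : star w i * w i = ((‖w i‖ ^ 2 : ℝ) : ℂ) := by
    rw [Pi.star_apply, Complex.star_def, Complex.conj_mul']; push_cast; rfl
  rw [mul_left_comm, h6, ← Complex.ofReal_mul, Complex.ofReal_re, Complex.ofReal_re]
  have h7 : (fun s => V s i) ≠ 0 := by
    intro h0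
    have h4 := col_sq hVV' i
    rw [Finset.sum_eq_zero fun s _ => by rw [congrFun h0 s]; simp] at h4
    exact zero_ne_one h4
  have h8 : A.mulVec (fun s => V s i) = ((hA.eigenvalues i : ℝ) : ℂ) • fun s => V s i := by
    funext s
    have := congrFun (congrFun h2 s) i
    rw [hG, Matrix.mul_diagonal] at this
    simp only [Matrix.mulVec, dotProduct, Pi.smul_apply, smul_eq_mul]
    rw [Matrix.mul_apply] at this
    rw [this, mul_comm]
  rcases h _ _ h7 h8 with h9 | h9
  · exact mul_le_mul_of_nonneg_right h9 (sq_nonneg _)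
  · have : w i = 0 := h9
    simp [this]

theorem form_herm {A : Matrix m m ℂ} (hA : Aᴴ = A) (u v : m → ℂ) :
    star (A.mulVec u) ⬝ᵥ v = star u ⬝ᵥ A.mulVec v := by
  rw [Matrix.star_mulVec, hA, Matrix.dotProduct_mulVec]

end mat

theorem casimir : ∑ a, spin a * spin a = (2 : ℂ) • (1 : M3) := by
  have h := sqrt2_inv_sq
  have hI : Complex.I * Complex.I = -1 := Complex.I_mul_I
  rw [Fin.sum_univ_three]
  unfold spin
  generalize ((Real.sqrt 2 : ℝ) : ℂ)⁻¹ = r at h ⊢
  ext i j
  fin_cases i <;> fin_cases j <;> simp [-neg_mul]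
  all_goals first
    | linear_combination 2 * h - r * r * hI
    | linear_combination 4 * h - 2 * r * r * hI
    | linear_combination r * r * hI

theorem sandwich (c : Fin 3) : ∑ a, spin a * spin c * spin a = spin c := by
  have h : ∀ a : Fin 3, spin a * spin (a + 1) = spin (a + 1) * spin a + Complex.I • spin (a + 2) :=
    fun a => by rw [← spin_comm]; abel
  have hs : ∀ f : Fin 3 → M3, ∑ a, f a = f c + f (c + 1) + f (c + 2) := by
    intro f
    rw [Fin.sum_univ_three]
    fin_cases c
    · rfl
    · show _ = f 1 + f 2 + f 0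
      abel
    · show _ = f 2 + f 0 + f 1
      abel
  have h0 := casimir
  rw [hs] at h0 ⊢
  have h1 := h c
  have h2 := h (c + 2)
  have h3 := h (c + 1)
  rw [f21, f22] at h2
  have f11 : ∀ a : Fin 3, a + 1 + 1 = a + 2 := by decide
  rw [f12', f11] at h3
  set x := spin c
  set y := spin (c + 1)
  set z := spin (c + 2)
  have e1 : y * x * y = y * y * x + Complex.I • (y * z) := by
    rw [Matrix.mul_assoc, h1, Matrix.mul_add, Matrix.mul_smul, Matrix.mul_assoc]
  have e2 : z * x * z = z * z * x - Complex.I • (z * y) := by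
    rw [Matrix.mul_assoc, Matrix.mul_assoc, h2, Matrix.mul_add, Matrix.mul_smul]
    abel
  have e3 : x * x * x + y * y * x + z * z * x = (2 : ℂ) • x := by
    rw [← add_mul, ← add_mul, h0, Matrix.smul_mul, Matrix.one_mul]
  have e4 : Complex.I • (y * z) - Complex.I • (z * y) = -x := by
    rw [h3, smul_add, smul_smul, Complex.I_mul_I, neg_smul, one_smul]
    abel
  calc x * x * x + y * x * y + z * x * z
      = (x * x * x + y * y * x + z * z * x) + (Complex.I • (y * z) - Complex.I • (z * y)) := by
        rw [e1, e2]; abel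
    _ = x := by rw [e3, e4, two_smul]; abel

variable {L : ℕ} [NeZero L]

theorem cas_site (x : Fin L) : ∑ a, onSite x (spin a) * onSite x (spin a) = (2 : ℂ) • 1 := by
  simp only [onSite_mul]
  rw [← onSite_sum, casimir, onSite_smul, onSite_one]

theorem sand_site (x y : Fin L) (c : Fin 3) :
    ∑ a, onSite x (spin a) * onSite y (spin c) * onSite x (spin a) =
      (if x = y then 1 else 2 : ℂ) • onSite y (spin c) := by
  split_ifs with h
  · subst h
    simp only [onSite_mul]
    rw [← onSite_sum, sandwich, one_smul]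
  · simp only [onSite_comm h, Matrix.mul_assoc]
    rw [← Finset.mul_sum, cas_site, Matrix.mul_smul, Matrix.mul_one]

theorem sand_H (hL : 2 ≤ L) :
    ∑ x : Fin L, ∑ a, onSite x (spin a) * haldaneH L * onSite x (spin a) =
      (2 * L - 2 : ℂ) • haldaneH L := by
  have h1 : ∀ (j : Fin L) (c : Fin 3), ∑ x : Fin L, ∑ a, onSite x (spin a) *
      (onSite j (spin c) * onSite (j + 1) (spin c)) * onSite x (spin a) =
      (2 * L - 2 : ℂ) • (onSite j (spin c) * onSite (j + 1) (spin c)) := by
    intro j c
    have hne := succ_ne hL j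
    have h2 : ∀ x : Fin L, ∑ a, onSite x (spin a) *
        (onSite j (spin c) * onSite (j + 1) (spin c)) * onSite x (spin a) =
        (2 - (if x = j then 1 else 0) - (if x = j + 1 then 1 else 0) : ℂ) •
          (onSite j (spin c) * onSite (j + 1) (spin c)) := by
      intro x
      by_cases hx : x = j + 1
      · have hx' : x ≠ j := by rw [hx]; exact hne
        have h3 : ∀ a, onSite x (spin a) * (onSite j (spin c) * onSite (j + 1) (spin c)) *
            onSite x (spin a) = onSite j (spin c) *
              (onSite x (spin a) * onSite (j + 1) (spin c) * onSite x (spin a)) := by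
          intro a
          rw [← Matrix.mul_assoc, onSite_comm hx']
          simp only [Matrix.mul_assoc]
        simp only [h3]
        rw [← Finset.mul_sum, sand_site, Matrix.mul_smul, if_pos hx, if_pos hx, if_neg hx']
        norm_num
      · have h3 : ∀ a, onSite x (spin a) * (onSite j (spin c) * onSite (j + 1) (spin c)) *
            onSite x (spin a) = (onSite x (spin a) * onSite j (spin c) * onSite x (spin a)) *
              onSite (j + 1) (spin c) := by
          intro a
          simp only [Matrix.mul_assoc]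
          rw [onSite_comm hx]
        simp only [h3]
        rw [← Finset.sum_mul, sand_site, Matrix.smul_mul, if_neg hx]
        split_ifs <;> norm_num
    simp only [h2]
    rw [← Finset.sum_smul]
    congr 1
    simp only [Finset.sum_sub_distrib, Finset.sum_ite_eq', Finset.mem_univ, if_true,
      Finset.sum_const, Finset.card_univ, Fintype.card_fin, nsmul_eq_mul]
    ring
  unfold haldaneH
  simp only [Finset.mul_sum, Finset.sum_mul, Finset.smul_sum]
  rw [Finset.sum_congr rfl fun x _ => Finset.sum_comm, Finset.sum_comm]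
  refine Finset.sum_congr rfl fun j _ => ?_
  rw [Finset.sum_congr rfl fun x _ => Finset.sum_comm, Finset.sum_comm]
  exact Finset.sum_congr rfl fun c _ => h1 j c

theorem H_lower (hL : 2 ≤ L) : ((2 : ℂ) • haldaneH L + (4 * L : ℂ) • 1).PosSemidef := by
  have h1 : (2 : ℂ) • haldaneH L + (4 * L : ℂ) • 1 = ∑ j : Fin L, ∑ a,
      (onSite j (spin a) + onSite (j + 1) (spin a))ᴴ *
        (onSite j (spin a) + onSite (j + 1) (spin a)) := by
    have h2 : (4 * L : ℂ) • (1 : Matrix (Fin L → Fin 3) (Fin L → Fin 3) ℂ) =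
        ∑ _j : Fin L, (4 : ℂ) • 1 := by
      rw [← Finset.sum_smul]; simp [mul_comm]
    unfold haldaneH
    rw [h2, Finset.smul_sum, ← Finset.sum_add_distrib]
    refine Finset.sum_congr rfl fun j _ => ?_
    simp only [Matrix.conjTranspose_add, onSite_ct, spin_herm, add_mul, mul_add,
      Finset.sum_add_distrib, cas_site, onSite_comm (succ_ne hL j)]
    module
  rw [h1]
  exact Matrix.posSemidef_sum _ fun j _ => Matrix.posSemidef_sum _ fun a _ =>
    Matrix.posSemidef_conjTranspose_mul_self _

/-- the sum rule bound -/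
theorem gap_le_two (hev : Even L) (hL : 12 ≤ L) : gap L ≤ 2 := by
  obtain ⟨ψ, p0, p1, p2, p3⟩ := ground_unique L hev hL
  obtain ⟨q1, q2, _⟩ := gap_ge_of (hps := fun _ hT => PS_zF hT.le) (γ := 1 / 25) (k₀ := 6)
    (fun _ hk i hi => DD_gap hk i hi) L hev (by omega) (by omega)
  have hT : ∀ a, (totalSpin L a)ᴴ = totalSpin L a := fun a => by
    unfold totalSpin
    simp only [Matrix.conjTranspose_sum, onSite_ct, spin_herm]
  have hS : ∀ (x : Fin L) a, (onSite x (spin a))ᴴ = onSite x (spin a) := fun x a => by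
    rw [onSite_ct, spin_herm]
  have h0 : ∀ (x : Fin L) a, star ψ ⬝ᵥ (onSite x (spin a)).mulVec ψ = 0 := by
    intro x a
    have h1 : totalSpin L (a + 1) * onSite x (spin (a + 1 + 1)) -
        onSite x (spin (a + 1 + 1)) * totalSpin L (a + 1) = Complex.I • onSite x (spin a) := by
      unfold totalSpin
      rw [Finset.sum_mul, Finset.mul_sum, ← Finset.sum_sub_distrib, Finset.sum_eq_single x]
      · rw [onSite_mul, onSite_mul, ← onSite_sub, spin_comm, onSite_smul, f12']
      · intro j _ hj
        rw [onSite_comm hj, sub_self]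
      · intro h; exact absurd (Finset.mem_univ _) h
    have h2 := congrArg (fun M => star ψ ⬝ᵥ M.mulVec ψ) h1
    simp only [Matrix.sub_mulVec, ← Matrix.mulVec_mulVec, Matrix.smul_mulVec,
      dotProduct_smul, p3, Matrix.mulVec_zero, ← form_herm (hT _), star_zero,
      zero_dotProduct, sub_zero] at h2
    exact (smul_eq_zero.1 h2.symm).resolve_left Complex.I_ne_zero
  have h1 : ∀ (x : Fin L) a, E1 L * (star ψ ⬝ᵥ (onSite x (spin a) * onSite x (spin a)).mulVec ψ).re
      ≤ (star ψ ⬝ᵥ (onSite x (spin a) * haldaneH L * onSite x (spin a)).mulVec ψ).re := by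
    intro x a
    have h2 := form_ge (haldaneH_herm L) ((onSite x (spin a)).mulVec ψ) (E1 L) (fun μ v hv hμ => by
      by_cases h3 : μ = E0 L
      · right
        obtain ⟨c, rfl⟩ := p2 v (by rw [← h3]; exact hμ)
        rw [star_smul, smul_dotProduct, h0, smul_zero]
      · left
        exact q2.2 ⟨⟨v, hv, hμ⟩, lt_of_le_of_ne (q1.2 ⟨v, hv, hμ⟩) (Ne.symm h3)⟩)
    rwa [form_herm (hS x a), form_herm (hS x a), Matrix.mulVec_mulVec, Matrix.mulVec_mulVec,
      Matrix.mulVec_mulVec] at h2
  have h2 := Finset.sum_le_sum fun x (_ : x ∈ univ) => Finset.sum_le_sum fun a (_ : a ∈ univ) =>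
    h1 x a
  simp only [← Finset.mul_sum, ← Complex.re_sum, ← dotProduct_sum, ← Matrix.sum_mulVec] at h2
  rw [sand_H (by omega)] at h2
  simp only [cas_site, Finset.sum_const, Finset.card_univ, Fintype.card_fin] at h2
  have h3 := (H_lower (L := L) (by omega)).re_dotProduct_nonneg ψ
  have h4 : 0 < (star ψ ⬝ᵥ ψ).re := (Complex.pos_iff.1 (Matrix.dotProduct_star_self_pos_iff.2 p0)).1
  have h5 : (star ψ ⬝ᵥ ψ).im = 0 :=
    (Complex.pos_iff.1 (Matrix.dotProduct_star_self_pos_iff.2 p0)).2.symm
  rw [← Nat.cast_smul_eq_nsmul ℂ] at h2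
  simp only [Matrix.add_mulVec, Matrix.smul_mulVec, Matrix.one_mulVec, p1, dotProduct_add,
    dotProduct_smul, smul_eq_mul, RCLike.re_to_complex] at h2 h3
  simp [h5] at h2 h3
  have h6 : (12 : ℝ) ≤ L := by exact_mod_cast hL
  unfold gap
  have h7 : 0 ≤ 2 * E0 L + 4 * L := by
    by_contra h8
    push Not at h8
    nlinarith
  have h8 : E1 L * (2 * L) ≤ (2 * L - 2) * E0 L := by
    refine le_of_mul_le_mul_right ?_ h4
    nlinarith
  nlinarith

end

end Vale.Agent.N348
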